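import Vale.Agent.Lib.P037.H19.Sym

namespace Vale.Agent.Lib.P037

open Finset

/-- `Removal H g`: every `n × n` matrix that differs in at least `ε n²` entries from every
`H`-free matrix contains at least `g ε · n⁴` ordered copies of the `2 × 2` pattern `H`
(for every `0 < ε < 1`). -/
def Removal (H : Fin 2 → Fin 2 → Bool) (g : ℝ → ℝ) : Prop :=
  ∀ (n : ℕ) (ε : ℝ) (A : Fin n → Fin n → Bool), 0 < ε → ε < 1 →
    (∀ B : Fin n → Fin n → Bool, numCopies H B = 0 → ε * (n : ℝ) ^ 2 ≤ (numDiff A B : ℝ)) →
    g ε * (n : ℝ) ^ 4 ≤ (numCopies H A : ℝ)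

/-- the pattern with rows `1 1` and `1 0` -/
def cornerPattern : Fin 2 → Fin 2 → Bool := fun i j => !(decide (i = 1) && decide (j = 1))

theorem revRows_revRows {k n : ℕ} (A : Fin k → Fin n → Bool) : revRows (revRows A) = A := by
  funext r c
  simp [revRows]

theorem revCols_revCols {k n : ℕ} (A : Fin k → Fin n → Bool) : revCols (revCols A) = A := by
  funext r c
  simp [revCols]

theorem transp_transp {k : ℕ} (A : Fin k → Fin k → Bool) : transp (transp A) = A := rfl

theorem Removal.mono {H : Fin 2 → Fin 2 → Bool} {g g' : ℝ → ℝ} (h : Removal H g)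
    (hg : ∀ ε : ℝ, 0 < ε → ε < 1 → g' ε ≤ g ε) : Removal H g' := by
  intro n ε A hε hε1 hfar
  have h1 := h n ε A hε hε1 hfar
  have h2 : g' ε * (n : ℝ) ^ 4 ≤ g ε * (n : ℝ) ^ 4 :=
    mul_le_mul_of_nonneg_right (hg ε hε hε1) (by positivity)
  linarith

theorem Removal.compl {H : Fin 2 → Fin 2 → Bool} {g : ℝ → ℝ} (h : Removal H g) :
    Removal (compl H) g := by
  intro n ε A hε hε1 hfar
  have key := h n ε (Vale.Agent.Lib.P037.compl A) hε hε1 (by
    intro B hB
    have h1 := hfar (Vale.Agent.Lib.P037.compl B) (by rw [numCopies_compl]; exact hB)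
    rw [← numDiff_compl, compl_compl] at h1
    exact h1)
  rw [← numCopies_compl, compl_compl] at key
  exact key

theorem Removal.revRows {H : Fin 2 → Fin 2 → Bool} {g : ℝ → ℝ} (h : Removal H g) :
    Removal (revRows H) g := by
  intro n ε A hε hε1 hfar
  have key := h n ε (Vale.Agent.Lib.P037.revRows A) hε hε1 (by
    intro B hB
    have h1 := hfar (Vale.Agent.Lib.P037.revRows B) (by rw [numCopies_revRows]; exact hB)
    rw [← numDiff_revRows, revRows_revRows] at h1
    exact h1)
  rw [← numCopies_revRows, revRows_revRows] at key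
  exact key

theorem Removal.revCols {H : Fin 2 → Fin 2 → Bool} {g : ℝ → ℝ} (h : Removal H g) :
    Removal (revCols H) g := by
  intro n ε A hε hε1 hfar
  have key := h n ε (Vale.Agent.Lib.P037.revCols A) hε hε1 (by
    intro B hB
    have h1 := hfar (Vale.Agent.Lib.P037.revCols B) (by rw [numCopies_revCols]; exact hB)
    rw [← numDiff_revCols, revCols_revCols] at h1
    exact h1)
  rw [← numCopies_revCols, revCols_revCols] at key
  exact key

theorem Removal.transp {H : Fin 2 → Fin 2 → Bool} {g : ℝ → ℝ} (h : Removal H g) :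
    Removal (transp H) g := by
  intro n ε A hε hε1 hfar
  have key := h n ε (Vale.Agent.Lib.P037.transp A) hε hε1 (by
    intro B hB
    have h1 := hfar (Vale.Agent.Lib.P037.transp B) (by rw [numCopies_transp]; exact hB)
    rw [← numDiff_transp, transp_transp] at h1
    exact h1)
  rw [← numCopies_transp] at key
  exact key

theorem pattern_ext (H H' : Fin 2 → Fin 2 → Bool) (h00 : H 0 0 = H' 0 0) (h01 : H 0 1 = H' 0 1)
    (h10 : H 1 0 = H' 1 0) (h11 : H 1 1 = H' 1 1) : H = H' := by
  funext i j
  fin_cases i <;> fin_cases j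
  · exact h00
  · exact h01
  · exact h10
  · exact h11

/-- all sixteen `2 × 2` patterns arise from four of them by complement, reversal of the
rows, reversal of the columns and transposition -/
theorem removal_all (g : ℝ → ℝ) (hid : Removal idPattern g) (hones : Removal onesPattern g)
    (heq : Removal eqRowsPattern g) (hcor : Removal cornerPattern g)
    (H : Fin 2 → Fin 2 → Bool) : Removal H g := by
  rcases Bool.eq_false_or_eq_true (H 0 0) with a | a <;>
  rcases Bool.eq_false_or_eq_true (H 0 1) with b | b <;>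
  rcases Bool.eq_false_or_eq_true (H 1 0) with c | c <;>
  rcases Bool.eq_false_or_eq_true (H 1 1) with d | d
  · -- 11 / 11
    have e : H = onesPattern := pattern_ext _ _ (by rw [a]; rfl) (by rw [b]; rfl)
      (by rw [c]; rfl) (by rw [d]; rfl)
    rw [e]
    exact hones
  · -- 11 / 10
    have e : H = cornerPattern := pattern_ext _ _ (by rw [a]; rfl) (by rw [b]; rfl)
      (by rw [c]; rfl) (by rw [d]; rfl)
    rw [e]
    exact hcor
  · -- 11 / 01
    have e : H = revCols cornerPattern := pattern_ext _ _ (by rw [a]; rfl) (by rw [b]; rfl)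
      (by rw [c]; rfl) (by rw [d]; rfl)
    rw [e]
    exact hcor.revCols
  · -- 11 / 00
    have e : H = transp eqRowsPattern := pattern_ext _ _ (by rw [a]; rfl) (by rw [b]; rfl)
      (by rw [c]; rfl) (by rw [d]; rfl)
    rw [e]
    exact heq.transp
  · -- 10 / 11
    have e : H = revRows cornerPattern := pattern_ext _ _ (by rw [a]; rfl) (by rw [b]; rfl)
      (by rw [c]; rfl) (by rw [d]; rfl)
    rw [e]
    exact hcor.revRows
  · -- 10 / 10
    have e : H = eqRowsPattern := pattern_ext _ _ (by rw [a]; rfl) (by rw [b]; rfl)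
      (by rw [c]; rfl) (by rw [d]; rfl)
    rw [e]
    exact heq
  · -- 10 / 01
    have e : H = idPattern := pattern_ext _ _ (by rw [a]; rfl) (by rw [b]; rfl)
      (by rw [c]; rfl) (by rw [d]; rfl)
    rw [e]
    exact hid
  · -- 10 / 00
    have e : H = compl (revRows (revCols cornerPattern)) := pattern_ext _ _ (by rw [a]; rfl)
      (by rw [b]; rfl) (by rw [c]; rfl) (by rw [d]; rfl)
    rw [e]
    exact hcor.revCols.revRows.compl
  · -- 01 / 11
    have e : H = revRows (revCols cornerPattern) := pattern_ext _ _ (by rw [a]; rfl)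
      (by rw [b]; rfl) (by rw [c]; rfl) (by rw [d]; rfl)
    rw [e]
    exact hcor.revCols.revRows
  · -- 01 / 10
    have e : H = compl idPattern := pattern_ext _ _ (by rw [a]; rfl) (by rw [b]; rfl)
      (by rw [c]; rfl) (by rw [d]; rfl)
    rw [e]
    exact hid.compl
  · -- 01 / 01
    have e : H = compl eqRowsPattern := pattern_ext _ _ (by rw [a]; rfl) (by rw [b]; rfl)
      (by rw [c]; rfl) (by rw [d]; rfl)
    rw [e]
    exact heq.compl
  · -- 01 / 00
    have e : H = compl (revRows cornerPattern) := pattern_ext _ _ (by rw [a]; rfl)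
      (by rw [b]; rfl) (by rw [c]; rfl) (by rw [d]; rfl)
    rw [e]
    exact hcor.revRows.compl
  · -- 00 / 11
    have e : H = compl (transp eqRowsPattern) := pattern_ext _ _ (by rw [a]; rfl)
      (by rw [b]; rfl) (by rw [c]; rfl) (by rw [d]; rfl)
    rw [e]
    exact heq.transp.compl
  · -- 00 / 10
    have e : H = compl (revCols cornerPattern) := pattern_ext _ _ (by rw [a]; rfl)
      (by rw [b]; rfl) (by rw [c]; rfl) (by rw [d]; rfl)
    rw [e]
    exact hcor.revCols.compl
  · -- 00 / 01
    have e : H = compl cornerPattern := pattern_ext _ _ (by rw [a]; rfl) (by rw [b]; rfl)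
      (by rw [c]; rfl) (by rw [d]; rfl)
    rw [e]
    exact hcor.compl
  · -- 00 / 00
    have e : H = compl onesPattern := pattern_ext _ _ (by rw [a]; rfl) (by rw [b]; rfl)
      (by rw [c]; rfl) (by rw [d]; rfl)
    rw [e]
    exact hones.compl

theorem removal_id : Removal idPattern (fun ε => (ε / 128) ^ 24) :=
  fun n ε A hε hε1 hfar => identity_removal n ε A hε hε1 hfar

theorem removal_ones : Removal onesPattern (fun ε => (ε / 128) ^ 24) :=
  fun n ε A hε hε1 hfar => ones_removal n ε A hε hε1 hfar

theorem removal_eqRows : Removal eqRowsPattern (fun ε => (ε / 128) ^ 24) :=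
  fun n ε A hε hε1 hfar => eqRows_removal n ε A hε hε1 hfar

end Vale.Agent.Lib.P037
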