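import Vale.Agent.Lib.P037.H19.BlowHom

namespace Vale.Agent.Lib.P037.H19

open Finset

theorem card_eq_pair_le (m n : ℕ) (x y : Fin m) (hxy : x ≠ y) :
    (univ.filter (fun f : Fin m → Fin n => f x = f y)).card * n ≤ n ^ m := by
  have h : ((univ.filter (fun f : Fin m → Fin n => f x = f y)) ×ˢ (univ : Finset (Fin n))).card
      ≤ (univ : Finset (Fin m → Fin n)).card := by
    refine Finset.card_le_card_of_injOn (fun p => Function.update p.1 y p.2)
      (fun _ _ => mem_univ _) ?_
    rintro ⟨f, v⟩ hf ⟨f', v'⟩ hf' heq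
    have hf1 : f x = f y := (mem_filter.1 (mem_product.1 (mem_coe.1 hf)).1).2
    have hf2 : f' x = f' y := (mem_filter.1 (mem_product.1 (mem_coe.1 hf')).1).2
    have heq' : Function.update f y v = Function.update f' y v' := heq
    have hv : v = v' := by
      have h1 := congrFun heq' y
      rw [Function.update_self, Function.update_self] at h1
      exact h1
    have hz : ∀ z, z ≠ y → f z = f' z := by
      intro z hz
      have h1 := congrFun heq' z
      rw [Function.update_of_ne hz, Function.update_of_ne hz] at h1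
      exact h1
    have hfy : f y = f' y := by
      rw [← hf1, ← hf2, hz x hxy]
    have hff : f = f' := by
      funext z
      by_cases hzy : z = y
      · rw [hzy]
        exact hfy
      · exact hz z hzy
    rw [hff, hv]
  rw [Finset.card_product, Finset.card_univ, Finset.card_univ, Fintype.card_fin,
    Fintype.card_fun, Fintype.card_fin, Fintype.card_fin] at h
  exact h

/-- the maps `Fin m → Fin n` that are not injective -/
def nonInj (m n : ℕ) : Finset (Fin m → Fin n) :=
  univ.filter (fun f => ¬ Function.Injective f)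

theorem card_nonInj_le (m n : ℕ) : (nonInj m n).card * n ≤ m ^ 2 * n ^ m := by
  have hsub : nonInj m n
      ⊆ (univ.filter (fun p : Fin m × Fin m => p.1 ≠ p.2)).biUnion
          (fun p => univ.filter (fun f : Fin m → Fin n => f p.1 = f p.2)) := by
    intro f hf
    unfold nonInj at hf
    rw [mem_filter] at hf
    have h := hf.2
    unfold Function.Injective at h
    simp only [not_forall] at h
    obtain ⟨x, y, hxy, hne⟩ := h
    rw [mem_biUnion]
    refine ⟨(x, y), ?_, ?_⟩
    · rw [mem_filter]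
      exact ⟨mem_univ _, hne⟩
    · rw [mem_filter]
      exact ⟨mem_univ _, hxy⟩
  have h1 := Finset.card_le_card hsub
  have h2 := Finset.card_biUnion_le (s := univ.filter (fun p : Fin m × Fin m => p.1 ≠ p.2))
    (t := fun p => univ.filter (fun f : Fin m → Fin n => f p.1 = f p.2))
  have h3 : (∑ p ∈ univ.filter (fun p : Fin m × Fin m => p.1 ≠ p.2),
      (univ.filter (fun f : Fin m → Fin n => f p.1 = f p.2)).card) * n ≤ m ^ 2 * n ^ m := by
    rw [Finset.sum_mul]
    have h4 : ∑ p ∈ univ.filter (fun p : Fin m × Fin m => p.1 ≠ p.2),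
        (univ.filter (fun f : Fin m → Fin n => f p.1 = f p.2)).card * n
        ≤ ∑ _p ∈ univ.filter (fun p : Fin m × Fin m => p.1 ≠ p.2), n ^ m :=
      Finset.sum_le_sum (fun p hp => card_eq_pair_le m n p.1 p.2 (mem_filter.1 hp).2)
    rw [Finset.sum_const, smul_eq_mul] at h4
    have h5 : (univ.filter (fun p : Fin m × Fin m => p.1 ≠ p.2)).card ≤ m ^ 2 := by
      have h6 := Finset.card_filter_le (univ : Finset (Fin m × Fin m))
        (fun p : Fin m × Fin m => p.1 ≠ p.2)
      rw [Finset.card_univ, Fintype.card_prod, Fintype.card_fin] at h6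
      rw [sq]
      exact h6
    exact h4.trans (Nat.mul_le_mul_right _ h5)
  exact (Nat.mul_le_mul_right _ (h1.trans h2)).trans h3

/-- tuples in which one of the four components is not injective -/
def degSet (n a b c d : ℕ) : Finset (Tup n a b c d) :=
  univ.filter (fun z => ¬ (Function.Injective z.1 ∧ Function.Injective z.2.1 ∧
    Function.Injective z.2.2.1 ∧ Function.Injective z.2.2.2))

theorem degSet_card_le (n a b c d : ℕ) :
    (degSet n a b c d).card * n
      ≤ ((d + 1) ^ 2 + (c + 1) ^ 2 + (b + 1) ^ 2 + (a + 1) ^ 2) * n ^ (a + b + c + d + 4) := by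
  set S1 : Finset (Tup n a b c d) := nonInj (d + 1) n ×ˢ univ with hS1
  set S2 : Finset (Tup n a b c d) := univ ×ˢ (nonInj (c + 1) n ×ˢ univ) with hS2
  set S3 : Finset (Tup n a b c d) := univ ×ˢ (univ ×ˢ (nonInj (b + 1) n ×ˢ univ)) with hS3
  set S4 : Finset (Tup n a b c d) := univ ×ˢ (univ ×ˢ (univ ×ˢ nonInj (a + 1) n)) with hS4
  have hsub : degSet n a b c d ⊆ S1 ∪ S2 ∪ (S3 ∪ S4) := by
    rintro ⟨γ1, γ0, ρ1, ρ0⟩ hz
    unfold degSet at hz
    rw [mem_filter] at hz
    have h := hz.2
    simp only [mem_union, hS1, hS2, hS3, hS4, mem_product, mem_univ, true_and, and_true, nonInj,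
      mem_filter]
    by_contra hcon
    simp only [not_or, not_not] at hcon
    exact h ⟨hcon.1.1, hcon.1.2, hcon.2.1, hcon.2.2⟩
  have c1 : S1.card * n ≤ (d + 1) ^ 2 * n ^ (a + b + c + d + 4) := by
    rw [hS1, Finset.card_product, Finset.card_univ, Fintype.card_prod, Fintype.card_prod,
      Fintype.card_fun, Fintype.card_fun, Fintype.card_fun, Fintype.card_fin, Fintype.card_fin,
      Fintype.card_fin, Fintype.card_fin]
    have h := card_nonInj_le (d + 1) n
    calc (nonInj (d + 1) n).card * (n ^ (c + 1) * (n ^ (b + 1) * n ^ (a + 1))) * n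
        = (nonInj (d + 1) n).card * n * (n ^ (c + 1) * (n ^ (b + 1) * n ^ (a + 1))) := by ring
      _ ≤ (d + 1) ^ 2 * n ^ (d + 1) * (n ^ (c + 1) * (n ^ (b + 1) * n ^ (a + 1))) :=
          Nat.mul_le_mul_right _ h
      _ = (d + 1) ^ 2 * n ^ (a + b + c + d + 4) := by ring
  have c2 : S2.card * n ≤ (c + 1) ^ 2 * n ^ (a + b + c + d + 4) := by
    rw [hS2, Finset.card_product, Finset.card_product, Finset.card_univ, Finset.card_univ,
      Fintype.card_prod, Fintype.card_fun, Fintype.card_fun, Fintype.card_fun, Fintype.card_fin,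
      Fintype.card_fin, Fintype.card_fin, Fintype.card_fin]
    have h := card_nonInj_le (c + 1) n
    calc n ^ (d + 1) * ((nonInj (c + 1) n).card * (n ^ (b + 1) * n ^ (a + 1))) * n
        = (nonInj (c + 1) n).card * n * (n ^ (d + 1) * (n ^ (b + 1) * n ^ (a + 1))) := by ring
      _ ≤ (c + 1) ^ 2 * n ^ (c + 1) * (n ^ (d + 1) * (n ^ (b + 1) * n ^ (a + 1))) :=
          Nat.mul_le_mul_right _ h
      _ = (c + 1) ^ 2 * n ^ (a + b + c + d + 4) := by ring
  have c3 : S3.card * n ≤ (b + 1) ^ 2 * n ^ (a + b + c + d + 4) := by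
    rw [hS3, Finset.card_product, Finset.card_product, Finset.card_product, Finset.card_univ,
      Finset.card_univ, Finset.card_univ, Fintype.card_fun, Fintype.card_fun, Fintype.card_fun,
      Fintype.card_fin, Fintype.card_fin, Fintype.card_fin, Fintype.card_fin]
    have h := card_nonInj_le (b + 1) n
    calc n ^ (d + 1) * (n ^ (c + 1) * ((nonInj (b + 1) n).card * n ^ (a + 1))) * n
        = (nonInj (b + 1) n).card * n * (n ^ (d + 1) * (n ^ (c + 1) * n ^ (a + 1))) := by ring
      _ ≤ (b + 1) ^ 2 * n ^ (b + 1) * (n ^ (d + 1) * (n ^ (c + 1) * n ^ (a + 1))) :=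
          Nat.mul_le_mul_right _ h
      _ = (b + 1) ^ 2 * n ^ (a + b + c + d + 4) := by ring
  have c4 : S4.card * n ≤ (a + 1) ^ 2 * n ^ (a + b + c + d + 4) := by
    rw [hS4, Finset.card_product, Finset.card_product, Finset.card_product, Finset.card_univ,
      Finset.card_univ, Finset.card_univ, Fintype.card_fun, Fintype.card_fun, Fintype.card_fun,
      Fintype.card_fin, Fintype.card_fin, Fintype.card_fin, Fintype.card_fin]
    have h := card_nonInj_le (a + 1) n
    calc n ^ (d + 1) * (n ^ (c + 1) * (n ^ (b + 1) * (nonInj (a + 1) n).card)) * n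
        = (nonInj (a + 1) n).card * n * (n ^ (d + 1) * (n ^ (c + 1) * n ^ (b + 1))) := by ring
      _ ≤ (a + 1) ^ 2 * n ^ (a + 1) * (n ^ (d + 1) * (n ^ (c + 1) * n ^ (b + 1))) :=
          Nat.mul_le_mul_right _ h
      _ = (a + 1) ^ 2 * n ^ (a + b + c + d + 4) := by ring
  have hle := Finset.card_le_card hsub
  have hu1 := Finset.card_union_le (S1 ∪ S2) (S3 ∪ S4)
  have hu2 := Finset.card_union_le S1 S2
  have hu3 := Finset.card_union_le S3 S4
  have htot : (degSet n a b c d).card ≤ S1.card + S2.card + (S3.card + S4.card) := by omega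
  calc (degSet n a b c d).card * n ≤ (S1.card + S2.card + (S3.card + S4.card)) * n :=
        Nat.mul_le_mul_right _ htot
    _ = S1.card * n + S2.card * n + (S3.card * n + S4.card * n) := by ring
    _ ≤ (d + 1) ^ 2 * n ^ (a + b + c + d + 4) + (c + 1) ^ 2 * n ^ (a + b + c + d + 4)
        + ((b + 1) ^ 2 * n ^ (a + b + c + d + 4) + (a + 1) ^ 2 * n ^ (a + b + c + d + 4)) := by
        omega
    _ = ((d + 1) ^ 2 + (c + 1) ^ 2 + (b + 1) ^ 2 + (a + 1) ^ 2) * n ^ (a + b + c + d + 4) := by
        ring

end Vale.Agent.Lib.P037.H19
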