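import Vale.Agent.Lib.P037.H19.BlowMain

namespace Vale.Agent.Lib.P037.H19

open Finset

/-- Polynomial removal for every block pattern of a `2 × 2` pattern: the `k × k` pattern whose
first `t` rows and last `k - t` rows, first `s` columns and last `k - s` columns form four constant
blocks given by the `2 × 2` pattern `H`. -/
theorem block_removal (H : Fin 2 → Fin 2 → Bool) (k t s : ℕ) (ht0 : 0 < t) (htk : t < k)
    (hs0 : 0 < s) (hsk : s < k) (n : ℕ) (ε : ℝ) (A : Fin n → Fin n → Bool)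
    (hε : 0 < ε) (hε1 : ε < 1)
    (hfar : ∀ B : Fin n → Fin n → Bool, numCopies (blockPattern H k t s) B = 0 →
      ε * (n : ℝ) ^ 2 ≤ (numDiff A B : ℝ)) :
    ((ε / 128) ^ (24 * k ^ 4) / (4 * (k : ℝ) ^ 2 * ((k.factorial : ℕ) : ℝ) ^ 2)) ^ (2 * k)
        * (n : ℝ) ^ (2 * k)
      ≤ (numCopies (blockPattern H k t s) A : ℝ) := by
  obtain ⟨a, rfl⟩ : ∃ a, t = a + 1 := ⟨t - 1, by omega⟩
  obtain ⟨b, rfl⟩ : ∃ b, k = a + 1 + (b + 1) := ⟨k - (a + 1) - 1, by omega⟩
  obtain ⟨c, rfl⟩ : ∃ c, s = c + 1 := ⟨s - 1, by omega⟩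
  obtain ⟨d, hk⟩ : ∃ d, a + 1 + (b + 1) = c + 1 + (d + 1) :=
    ⟨a + 1 + (b + 1) - (c + 1) - 1, by omega⟩
  have hmain := block_removal_aux H a b c d hk n ε A hε hε1 hfar
  refine le_trans ?_ hmain
  have hP : a + b + c + d + 4 = 2 * (a + 1 + (b + 1)) := by omega
  rw [hP]
  set k := a + 1 + (b + 1) with hkdef
  have hy0 : 0 < ε / 128 := by positivity
  have hy1 : ε / 128 ≤ 1 := by
    rw [div_le_one (by norm_num)]
    linarith
  -- the exponent
  have hT : (d + 1) * (c + 1) * (b + 1) * (a + 1) ≤ k ^ 4 := by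
    have h1 : d + 1 ≤ k := by omega
    have h2 : c + 1 ≤ k := by omega
    have h3 : b + 1 ≤ k := by omega
    have h4 : a + 1 ≤ k := by omega
    calc (d + 1) * (c + 1) * (b + 1) * (a + 1) ≤ k * k * k * k :=
          Nat.mul_le_mul (Nat.mul_le_mul (Nat.mul_le_mul h1 h2) h3) h4
      _ = k ^ 4 := by ring
  have hnum : (ε / 128) ^ (24 * k ^ 4)
      ≤ ((ε / 128) ^ 24) ^ ((d + 1) * (c + 1) * (b + 1) * (a + 1)) := by
    rw [← pow_mul]
    exact pow_le_pow_of_le_one hy0.le hy1 (by omega)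
  -- the degenerate count
  have hK2 : (d + 1) ^ 2 + (c + 1) ^ 2 + (b + 1) ^ 2 + (a + 1) ^ 2 ≤ 2 * k ^ 2 := by
    have h1 : (a + 1) ^ 2 + (b + 1) ^ 2 ≤ k ^ 2 := by
      rw [hkdef]
      nlinarith
    have h2 : (c + 1) ^ 2 + (d + 1) ^ 2 ≤ k ^ 2 := by
      rw [hk]
      nlinarith
    omega
  -- the factorials
  have hF : (d + 1).factorial * ((c + 1).factorial * ((b + 1).factorial * (a + 1).factorial))
      ≤ k.factorial ^ 2 := by
    have hkpos : 0 < k.factorial := Nat.factorial_pos k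
    have h1 : (b + 1).factorial * (a + 1).factorial ≤ k.factorial := by
      have hdvd := Nat.factorial_mul_factorial_dvd_factorial_add (b + 1) (a + 1)
      have hle := Nat.le_of_dvd (Nat.factorial_pos _) hdvd
      have e : b + 1 + (a + 1) = k := by omega
      rw [e] at hle
      exact hle
    have h2 : (d + 1).factorial * (c + 1).factorial ≤ k.factorial := by
      have hdvd := Nat.factorial_mul_factorial_dvd_factorial_add (d + 1) (c + 1)
      have hle := Nat.le_of_dvd (Nat.factorial_pos _) hdvd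
      have e : d + 1 + (c + 1) = k := by omega
      rw [e] at hle
      exact hle
    calc (d + 1).factorial * ((c + 1).factorial * ((b + 1).factorial * (a + 1).factorial))
        = ((d + 1).factorial * (c + 1).factorial) * ((b + 1).factorial * (a + 1).factorial) := by
          ring
      _ ≤ k.factorial * k.factorial := Nat.mul_le_mul h2 h1
      _ = k.factorial ^ 2 := by ring
  have hK2r : ((((d + 1) ^ 2 + (c + 1) ^ 2 + (b + 1) ^ 2 + (a + 1) ^ 2 : ℕ)) : ℝ)
      ≤ 2 * (k : ℝ) ^ 2 := by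
    exact_mod_cast hK2
  have hFr : ((((d + 1).factorial * ((c + 1).factorial * ((b + 1).factorial * (a + 1).factorial))
      : ℕ)) : ℝ) ≤ ((k.factorial : ℕ) : ℝ) ^ 2 := by
    exact_mod_cast hF
  have hK2pos : (0 : ℝ) < ((((d + 1) ^ 2 + (c + 1) ^ 2 + (b + 1) ^ 2 + (a + 1) ^ 2 : ℕ)) : ℝ) := by
    have : 0 < (d + 1) ^ 2 + (c + 1) ^ 2 + (b + 1) ^ 2 + (a + 1) ^ 2 := by positivity
    exact_mod_cast this
  have hFpos : (0 : ℝ) < ((((d + 1).factorial *
      ((c + 1).factorial * ((b + 1).factorial * (a + 1).factorial)) : ℕ)) : ℝ) := by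
    have : 0 < (d + 1).factorial * ((c + 1).factorial * ((b + 1).factorial * (a + 1).factorial)) :=
      by positivity
    exact_mod_cast this
  have hden : 2 * ((((d + 1) ^ 2 + (c + 1) ^ 2 + (b + 1) ^ 2 + (a + 1) ^ 2 : ℕ)) : ℝ) *
      ((((d + 1).factorial * ((c + 1).factorial * ((b + 1).factorial * (a + 1).factorial))
      : ℕ)) : ℝ) ≤ 4 * (k : ℝ) ^ 2 * ((k.factorial : ℕ) : ℝ) ^ 2 := by
    have hk2nn : (0 : ℝ) ≤ 2 * (k : ℝ) ^ 2 := by positivity
    calc 2 * ((((d + 1) ^ 2 + (c + 1) ^ 2 + (b + 1) ^ 2 + (a + 1) ^ 2 : ℕ)) : ℝ) *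
          ((((d + 1).factorial * ((c + 1).factorial * ((b + 1).factorial * (a + 1).factorial))
          : ℕ)) : ℝ)
        ≤ 2 * (2 * (k : ℝ) ^ 2) * ((k.factorial : ℕ) : ℝ) ^ 2 := by
          apply mul_le_mul _ hFr hFpos.le (by positivity)
          linarith
      _ = 4 * (k : ℝ) ^ 2 * ((k.factorial : ℕ) : ℝ) ^ 2 := by ring
  have hfrac : (ε / 128) ^ (24 * k ^ 4) / (4 * (k : ℝ) ^ 2 * ((k.factorial : ℕ) : ℝ) ^ 2)
      ≤ ((ε / 128) ^ 24) ^ ((d + 1) * (c + 1) * (b + 1) * (a + 1)) /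
        (2 * ((((d + 1) ^ 2 + (c + 1) ^ 2 + (b + 1) ^ 2 + (a + 1) ^ 2 : ℕ)) : ℝ) *
          ((((d + 1).factorial * ((c + 1).factorial * ((b + 1).factorial * (a + 1).factorial))
          : ℕ)) : ℝ)) := by
    apply div_le_div₀ (by positivity) hnum (by positivity) hden
  have hkfpos : (0 : ℝ) < ((k.factorial : ℕ) : ℝ) := by
    exact_mod_cast Nat.factorial_pos k
  have hkpos : (0 : ℝ) < (k : ℝ) := by
    have : 0 < k := by omega
    exact_mod_cast this
  have hlhs0 : 0 ≤ (ε / 128) ^ (24 * k ^ 4) / (4 * (k : ℝ) ^ 2 * ((k.factorial : ℕ) : ℝ) ^ 2) := by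
    positivity
  exact mul_le_mul_of_nonneg_right (pow_le_pow_left₀ hlhs0 hfrac (2 * k)) (by positivity)

end Vale.Agent.Lib.P037.H19
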