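import Vale.Agent.Lib.P037.H19.BlowDeg

namespace Vale.Agent.Lib.P037.H19

open Finset

/-- tuples of `homSet` whose four components are strictly increasing -/
def sortedSet {n : ℕ} (Q : Finset (Fin n × Fin n × Fin n × Fin n)) (a b c d : ℕ) :
    Finset (Tup n a b c d) :=
  (homSet Q a b c d).filter (fun z => StrictMono z.1 ∧ StrictMono z.2.1 ∧
    StrictMono z.2.2.1 ∧ StrictMono z.2.2.2)

theorem strictMono_sort {m n : ℕ} (f : Fin m → Fin n) (hf : Function.Injective f) :
    StrictMono (f ∘ Tuple.sort f) :=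
  (Tuple.monotone_sort f).strictMono_of_injective (hf.comp (Tuple.sort f).injective)

theorem comp_perm_cancel {m n : ℕ} (f g : Fin m → Fin n) (σ : Equiv.Perm (Fin m))
    (h : f ∘ σ = g ∘ σ) : f = g := by
  funext x
  have h1 := congrFun h (σ.symm x)
  simpa using h1

/-- the sorting map: a tuple with injective components goes to its sorted version together
with the four sorting permutations -/
def sortMap {n a b c d : ℕ} (z : Tup n a b c d) :
    Tup n a b c d × (Equiv.Perm (Fin (d + 1)) × Equiv.Perm (Fin (c + 1)) ×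
      Equiv.Perm (Fin (b + 1)) × Equiv.Perm (Fin (a + 1))) :=
  ((z.1 ∘ Tuple.sort z.1, z.2.1 ∘ Tuple.sort z.2.1, z.2.2.1 ∘ Tuple.sort z.2.2.1,
      z.2.2.2 ∘ Tuple.sort z.2.2.2),
    (Tuple.sort z.1, Tuple.sort z.2.1, Tuple.sort z.2.2.1, Tuple.sort z.2.2.2))

theorem sortMap_injective {n a b c d : ℕ} : Function.Injective (sortMap (n := n) (a := a)
    (b := b) (c := c) (d := d)) := by
  rintro ⟨γ1, γ0, ρ1, ρ0⟩ ⟨γ1', γ0', ρ1', ρ0'⟩ h
  unfold sortMap at h
  simp only [Prod.mk.injEq] at h
  obtain ⟨⟨h1, h2, h3, h4⟩, s1, s2, s3, s4⟩ := h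
  rw [← s1] at h1
  rw [← s2] at h2
  rw [← s3] at h3
  rw [← s4] at h4
  rw [comp_perm_cancel _ _ _ h1, comp_perm_cancel _ _ _ h2, comp_perm_cancel _ _ _ h3,
    comp_perm_cancel _ _ _ h4]

theorem inj_card_le {n : ℕ} (Q : Finset (Fin n × Fin n × Fin n × Fin n)) (a b c d : ℕ) :
    (homSet Q a b c d \ degSet n a b c d).card
      ≤ (sortedSet Q a b c d).card *
        ((d + 1).factorial * ((c + 1).factorial * ((b + 1).factorial * (a + 1).factorial))) := by
  have h : (homSet Q a b c d \ degSet n a b c d).card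
      ≤ (sortedSet Q a b c d ×ˢ (univ : Finset (Equiv.Perm (Fin (d + 1)) ×
          Equiv.Perm (Fin (c + 1)) × Equiv.Perm (Fin (b + 1)) × Equiv.Perm (Fin (a + 1))))).card := by
    refine Finset.card_le_card_of_injOn sortMap ?_ (fun x _ y _ hxy => sortMap_injective hxy)
    intro z hz
    rw [mem_coe, mem_sdiff] at hz
    rw [mem_coe]
    obtain ⟨hz1, hz2⟩ := hz
    have hinj : Function.Injective z.1 ∧ Function.Injective z.2.1 ∧
        Function.Injective z.2.2.1 ∧ Function.Injective z.2.2.2 := by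
      by_contra hcon
      apply hz2
      unfold degSet
      rw [mem_filter]
      exact ⟨mem_univ _, hcon⟩
    rw [mem_homSet] at hz1
    rw [mem_product]
    refine ⟨?_, mem_univ _⟩
    unfold sortedSet
    rw [mem_filter, mem_homSet]
    refine ⟨?_, ?_⟩
    · intro i i' j j'
      exact hz1 _ _ _ _
    · exact ⟨strictMono_sort _ hinj.1, strictMono_sort _ hinj.2.1, strictMono_sort _ hinj.2.2.1,
        strictMono_sort _ hinj.2.2.2⟩
  rw [Finset.card_product, Finset.card_univ, Fintype.card_prod, Fintype.card_prod,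
    Fintype.card_prod, Fintype.card_perm, Fintype.card_perm, Fintype.card_perm,
    Fintype.card_perm, Fintype.card_fin, Fintype.card_fin, Fintype.card_fin,
    Fintype.card_fin] at h
  exact h

end Vale.Agent.Lib.P037.H19
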