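import Vale.Agent.Lib.P037.Blow.Defs
import Vale.Agent.Lib.P037.H19.BlowSort

namespace Vale.Agent.Lib.P037.H19

open Finset

theorem strictMono_append {m1 m2 n : ℕ} (f : Fin m1 → Fin n) (g : Fin m2 → Fin n)
    (hf : StrictMono f) (hg : StrictMono g) (hfg : ∀ i j, f i < g j) :
    StrictMono (Fin.append f g) := by
  intro i j hij
  induction i using Fin.addCases with
  | left i =>
    induction j using Fin.addCases with
    | left j =>
      rw [Fin.append_left, Fin.append_left]
      apply hf
      rw [Fin.lt_def] at hij ⊢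
      simpa using hij
    | right j =>
      rw [Fin.append_left, Fin.append_right]
      exact hfg i j
  | right i =>
    induction j using Fin.addCases with
    | left j =>
      exfalso
      rw [Fin.lt_def] at hij
      simp only [Fin.val_natAdd, Fin.val_castAdd] at hij
      have := j.isLt
      omega
    | right j =>
      rw [Fin.append_right, Fin.append_right]
      apply hg
      rw [Fin.lt_def] at hij ⊢
      simpa using hij

theorem append_cases {m1 m2 n : ℕ} (f : Fin m1 → Fin n) (g : Fin m2 → Fin n)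
    (i : Fin (m1 + m2)) :
    (i.val < m1 ∧ ∃ i0, Fin.append f g i = f i0) ∨ (¬ i.val < m1 ∧ ∃ i1, Fin.append f g i = g i1) := by
  induction i using Fin.addCases with
  | left i =>
    left
    refine ⟨?_, i, Fin.append_left f g i⟩
    simp
  | right i =>
    right
    refine ⟨?_, i, Fin.append_right f g i⟩
    simp

theorem append_inj {m1 m2 n : ℕ} (f f' : Fin m1 → Fin n) (g g' : Fin m2 → Fin n)
    (h : Fin.append f g = Fin.append f' g') : f = f' ∧ g = g' := by
  constructor
  · funext i
    have h1 := congrFun h (Fin.castAdd m2 i)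
    rw [Fin.append_left, Fin.append_left] at h1
    exact h1
  · funext i
    have h1 := congrFun h (Fin.natAdd m1 i)
    rw [Fin.append_right, Fin.append_right] at h1
    exact h1

/-- the gluing map: a sorted tuple of `homSet` goes to an ordered copy of the block pattern -/
def glueMap {n a b c d : ℕ} (hk : a + 1 + (b + 1) = c + 1 + (d + 1)) (z : Tup n a b c d) :
    (Fin (a + 1 + (b + 1)) → Fin n) × (Fin (a + 1 + (b + 1)) → Fin n) :=
  (Fin.append z.2.2.2 z.2.2.1, fun j => Fin.append z.2.1 z.1 (Fin.cast hk j))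

theorem glueMap_injective {n a b c d : ℕ} (hk : a + 1 + (b + 1) = c + 1 + (d + 1)) :
    Function.Injective (glueMap (n := n) hk) := by
  rintro ⟨γ1, γ0, ρ1, ρ0⟩ ⟨γ1', γ0', ρ1', ρ0'⟩ h
  unfold glueMap at h
  simp only [Prod.mk.injEq] at h
  obtain ⟨h1, h2⟩ := h
  have hr := append_inj _ _ _ _ h1
  have h3 : Fin.append γ0 γ1 = Fin.append γ0' γ1' := by
    funext x
    have h4 := congrFun h2 (Fin.cast hk.symm x)
    simpa using h4
  have hc := append_inj _ _ _ _ h3
  rw [hr.1, hr.2, hc.1, hc.2]

theorem sortedSet_card_le {n : ℕ} (H : Fin 2 → Fin 2 → Bool) (A : Fin n → Fin n → Bool)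
    (a b c d : ℕ) (hk : a + 1 + (b + 1) = c + 1 + (d + 1)) :
    (sortedSet (quadSet H A) a b c d).card
      ≤ numCopies (blockPattern H (a + 1 + (b + 1)) (a + 1) (c + 1)) A := by
  unfold numCopies
  refine Finset.card_le_card_of_injOn (glueMap hk) ?_
    (fun x _ y _ hxy => glueMap_injective hk hxy)
  rintro ⟨γ1, γ0, ρ1, ρ0⟩ hz
  rw [mem_coe] at hz ⊢
  unfold sortedSet at hz
  rw [mem_filter, mem_homSet] at hz
  obtain ⟨hhom, hs1, hs0, hr1, hr0⟩ := hz
  have hQ : ∀ i i' j j', ρ0 i < ρ1 i' ∧ γ0 j < γ1 j' ∧ A (ρ0 i) (γ0 j) = H 0 0 ∧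
      A (ρ0 i) (γ1 j') = H 0 1 ∧ A (ρ1 i') (γ0 j) = H 1 0 ∧ A (ρ1 i') (γ1 j') = H 1 1 := by
    intro i i' j j'
    have h := hhom i i' j j'
    rw [mem_quadSet] at h
    exact h
  rw [mem_filter]
  refine ⟨mem_univ _, ?_, ?_, ?_⟩
  · exact strictMono_append ρ0 ρ1 hr0 hr1 (fun i i' => (hQ i i' 0 0).1)
  · have hsm : StrictMono (Fin.append γ0 γ1) :=
      strictMono_append γ0 γ1 hs0 hs1 (fun j j' => (hQ 0 0 j j').2.1)
    intro j j' hjj
    apply hsm
    rw [Fin.lt_def] at hjj ⊢
    simpa using hjj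
  · intro i j
    show A (Fin.append ρ0 ρ1 i) (Fin.append γ0 γ1 (Fin.cast hk j))
      = H (if i.val < a + 1 then 0 else 1) (if j.val < c + 1 then 0 else 1)
    have hj : (Fin.cast hk j).val = j.val := rfl
    rcases append_cases ρ0 ρ1 i with ⟨hi, i0, hi0⟩ | ⟨hi, i1, hi1⟩
    · rcases append_cases γ0 γ1 (Fin.cast hk j) with ⟨hj', j0, hj0⟩ | ⟨hj', j1, hj1⟩
      · rw [hj] at hj'
        rw [hi0, hj0, if_pos hi, if_pos hj']
        exact (hQ i0 0 j0 0).2.2.1
      · rw [hj] at hj'
        rw [hi0, hj1, if_pos hi, if_neg hj']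
        exact (hQ i0 0 0 j1).2.2.2.1
    · rcases append_cases γ0 γ1 (Fin.cast hk j) with ⟨hj', j0, hj0⟩ | ⟨hj', j1, hj1⟩
      · rw [hj] at hj'
        rw [hi1, hj0, if_neg hi, if_pos hj']
        exact (hQ 0 i1 j0 0).2.2.2.2.1
      · rw [hj] at hj'
        rw [hi1, hj1, if_neg hi, if_neg hj']
        exact (hQ 0 i1 0 j1).2.2.2.2.2

/-- every tuple of `homSet` is degenerate or sorts to a copy of the block pattern -/
theorem homSet_card_le {n : ℕ} (H : Fin 2 → Fin 2 → Bool) (A : Fin n → Fin n → Bool)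
    (a b c d : ℕ) (hk : a + 1 + (b + 1) = c + 1 + (d + 1)) :
    (homSet (quadSet H A) a b c d).card
      ≤ (degSet n a b c d).card
        + numCopies (blockPattern H (a + 1 + (b + 1)) (a + 1) (c + 1)) A *
          ((d + 1).factorial * ((c + 1).factorial * ((b + 1).factorial * (a + 1).factorial))) := by
  have h1 : (homSet (quadSet H A) a b c d).card
      ≤ (degSet n a b c d).card + (homSet (quadSet H A) a b c d \ degSet n a b c d).card := by
    have hsub : homSet (quadSet H A) a b c d
        ⊆ degSet n a b c d ∪ (homSet (quadSet H A) a b c d \ degSet n a b c d) := by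
      intro z hz
      rw [mem_union, mem_sdiff]
      by_cases h : z ∈ degSet n a b c d
      · left; exact h
      · right; exact ⟨hz, h⟩
    exact (Finset.card_le_card hsub).trans (Finset.card_union_le _ _)
  have h2 := inj_card_le (quadSet H A) a b c d
  have h3 := sortedSet_card_le H A a b c d hk
  have h4 := Nat.mul_le_mul_right
    ((d + 1).factorial * ((c + 1).factorial * ((b + 1).factorial * (a + 1).factorial))) h3
  omega

end Vale.Agent.Lib.P037.H19
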