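import Mathlib

namespace Vale.Agent.Lib.P037.H19

open Finset

/-- one power-mean step: blowing up the last coordinate `m + 1` times -/
theorem pow_step {X Y : Type} [Fintype X] [Fintype Y] (f : X → Y → ℕ) (m : ℕ) :
    (∑ x, ∑ y, f x y) ^ (m + 1)
      ≤ Fintype.card X ^ m * ∑ x, ∑ η : Fin (m + 1) → Y, ∏ i, f x (η i) := by
  have h := pow_sum_le_card_mul_sum_pow (s := (univ : Finset X)) (f := fun x => ∑ y, f x y)
    (fun i _ => Nat.zero_le _) m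
  rw [Finset.card_univ] at h
  have e : ∀ x, (∑ y, f x y) ^ (m + 1) = ∑ η : Fin (m + 1) → Y, ∏ i, f x (η i) :=
    fun x => Fintype.sum_pow (fun y => f x y) (m + 1)
  rw [Finset.sum_congr rfl (fun x _ => e x)] at h
  exact_mod_cast h

theorem chain_pow (n X Y Z e1 e2 m : ℕ) (h1 : X ≤ n ^ e1 * Y)
    (h2 : Y ^ (m + 1) ≤ n ^ e2 * Z) : X ^ (m + 1) ≤ n ^ (e1 * (m + 1) + e2) * Z := by
  calc X ^ (m + 1) ≤ (n ^ e1 * Y) ^ (m + 1) := Nat.pow_le_pow_left h1 _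
    _ = n ^ (e1 * (m + 1)) * Y ^ (m + 1) := by rw [mul_pow, ← pow_mul]
    _ ≤ n ^ (e1 * (m + 1)) * (n ^ e2 * Z) := Nat.mul_le_mul_left _ h2
    _ = n ^ (e1 * (m + 1) + e2) * Z := by rw [pow_add]; ring

/-- the weighted number of complete four-partite configurations with parts of sizes
`a + 1`, `b + 1`, `c + 1`, `d + 1` -/
def homSum {n : ℕ} (q : Fin n → Fin n → Fin n → Fin n → ℕ) (a b c d : ℕ) : ℕ :=
  ∑ γ1 : Fin (d + 1) → Fin n, ∑ γ0 : Fin (c + 1) → Fin n, ∑ ρ1 : Fin (b + 1) → Fin n,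
    ∑ ρ0 : Fin (a + 1) → Fin n, ∏ i, ∏ i', ∏ j, ∏ j', q (ρ0 i) (ρ1 i') (γ0 j) (γ1 j')

theorem hom_step1 {n : ℕ} (q : Fin n → Fin n → Fin n → Fin n → ℕ) (d : ℕ) :
    (∑ r, ∑ r', ∑ c', ∑ d', q r r' c' d') ^ (d + 1)
      ≤ n ^ (3 * d) * ∑ r, ∑ r', ∑ c', ∑ γ1 : Fin (d + 1) → Fin n, ∏ j', q r r' c' (γ1 j') := by
  have h := pow_step (X := Fin n × Fin n × Fin n) (Y := Fin n)
    (fun x y => q x.1 x.2.1 x.2.2 y) d
  simp only [Fintype.sum_prod_type, Fintype.card_prod, Fintype.card_fin] at h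
  have e : (n * (n * n)) ^ d = n ^ (3 * d) := by
    rw [show n * (n * n) = n ^ 3 by ring, ← pow_mul]
  rw [e] at h
  exact h

theorem hom_step2 {n : ℕ} (q : Fin n → Fin n → Fin n → Fin n → ℕ) (c d : ℕ) :
    (∑ r, ∑ r', ∑ c', ∑ γ1 : Fin (d + 1) → Fin n, ∏ j', q r r' c' (γ1 j')) ^ (c + 1)
      ≤ n ^ ((d + 3) * c) * ∑ r, ∑ r', ∑ γ1 : Fin (d + 1) → Fin n,
          ∑ γ0 : Fin (c + 1) → Fin n, ∏ j, ∏ j', q r r' (γ0 j) (γ1 j') := by
  have h := pow_step (X := Fin n × Fin n × (Fin (d + 1) → Fin n)) (Y := Fin n)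
    (fun x y => ∏ j', q x.1 x.2.1 y (x.2.2 j')) c
  simp only [Fintype.sum_prod_type, Fintype.card_prod, Fintype.card_fin, Fintype.card_fun] at h
  have e : (n * (n * n ^ (d + 1))) ^ c = n ^ ((d + 3) * c) := by
    rw [show n * (n * n ^ (d + 1)) = n ^ (d + 3) by ring, ← pow_mul]
  rw [e] at h
  have e2 : (∑ r, ∑ r', ∑ c', ∑ γ1 : Fin (d + 1) → Fin n, ∏ j', q r r' c' (γ1 j'))
      = ∑ r, ∑ r', ∑ γ1 : Fin (d + 1) → Fin n, ∑ c', ∏ j', q r r' c' (γ1 j') := by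
    refine Finset.sum_congr rfl (fun r _ => ?_)
    refine Finset.sum_congr rfl (fun r' _ => ?_)
    exact Finset.sum_comm
  rw [e2]
  exact h

theorem hom_step3 {n : ℕ} (q : Fin n → Fin n → Fin n → Fin n → ℕ) (b c d : ℕ) :
    (∑ r, ∑ r', ∑ γ1 : Fin (d + 1) → Fin n,
        ∑ γ0 : Fin (c + 1) → Fin n, ∏ j, ∏ j', q r r' (γ0 j) (γ1 j')) ^ (b + 1)
      ≤ n ^ ((c + d + 3) * b) * ∑ r, ∑ γ1 : Fin (d + 1) → Fin n, ∑ γ0 : Fin (c + 1) → Fin n,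
          ∑ ρ1 : Fin (b + 1) → Fin n, ∏ i', ∏ j, ∏ j', q r (ρ1 i') (γ0 j) (γ1 j') := by
  have h := pow_step (X := Fin n × (Fin (d + 1) → Fin n) × (Fin (c + 1) → Fin n)) (Y := Fin n)
    (fun x y => ∏ j, ∏ j', q x.1 y (x.2.2 j) (x.2.1 j')) b
  simp only [Fintype.sum_prod_type, Fintype.card_prod, Fintype.card_fin, Fintype.card_fun] at h
  have e : (n * (n ^ (d + 1) * n ^ (c + 1))) ^ b = n ^ ((c + d + 3) * b) := by
    rw [show n * (n ^ (d + 1) * n ^ (c + 1)) = n ^ (c + d + 3) by ring, ← pow_mul]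
  rw [e] at h
  have e2 : (∑ r, ∑ r', ∑ γ1 : Fin (d + 1) → Fin n,
        ∑ γ0 : Fin (c + 1) → Fin n, ∏ j, ∏ j', q r r' (γ0 j) (γ1 j'))
      = ∑ r, ∑ γ1 : Fin (d + 1) → Fin n, ∑ γ0 : Fin (c + 1) → Fin n, ∑ r',
          ∏ j, ∏ j', q r r' (γ0 j) (γ1 j') := by
    refine Finset.sum_congr rfl (fun r _ => ?_)
    rw [Finset.sum_comm]
    refine Finset.sum_congr rfl (fun γ1 _ => ?_)
    exact Finset.sum_comm
  rw [e2]
  exact h

theorem hom_step4 {n : ℕ} (q : Fin n → Fin n → Fin n → Fin n → ℕ) (a b c d : ℕ) :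
    (∑ r, ∑ γ1 : Fin (d + 1) → Fin n, ∑ γ0 : Fin (c + 1) → Fin n,
        ∑ ρ1 : Fin (b + 1) → Fin n, ∏ i', ∏ j, ∏ j', q r (ρ1 i') (γ0 j) (γ1 j')) ^ (a + 1)
      ≤ n ^ ((b + c + d + 3) * a) * homSum q a b c d := by
  have h := pow_step
    (X := (Fin (d + 1) → Fin n) × (Fin (c + 1) → Fin n) × (Fin (b + 1) → Fin n)) (Y := Fin n)
    (fun x y => ∏ i', ∏ j, ∏ j', q y (x.2.2 i') (x.2.1 j) (x.1 j')) a
  simp only [Fintype.sum_prod_type, Fintype.card_prod, Fintype.card_fin, Fintype.card_fun] at h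
  have e : (n ^ (d + 1) * (n ^ (c + 1) * n ^ (b + 1))) ^ a = n ^ ((b + c + d + 3) * a) := by
    rw [show n ^ (d + 1) * (n ^ (c + 1) * n ^ (b + 1)) = n ^ (b + c + d + 3) by ring, ← pow_mul]
  rw [e] at h
  have e2 : (∑ r, ∑ γ1 : Fin (d + 1) → Fin n, ∑ γ0 : Fin (c + 1) → Fin n,
        ∑ ρ1 : Fin (b + 1) → Fin n, ∏ i', ∏ j, ∏ j', q r (ρ1 i') (γ0 j) (γ1 j'))
      = ∑ γ1 : Fin (d + 1) → Fin n, ∑ γ0 : Fin (c + 1) → Fin n,
        ∑ ρ1 : Fin (b + 1) → Fin n, ∑ r, ∏ i', ∏ j, ∏ j', q r (ρ1 i') (γ0 j) (γ1 j') := by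
    rw [Finset.sum_comm]
    refine Finset.sum_congr rfl (fun γ1 _ => ?_)
    rw [Finset.sum_comm]
    refine Finset.sum_congr rfl (fun γ0 _ => ?_)
    exact Finset.sum_comm
  rw [e2]
  unfold homSum
  exact h

/-- the exponent of `n` lost in the four power-mean steps -/
def lossExp (a b c d : ℕ) : ℕ :=
  ((3 * d * (c + 1) + (d + 3) * c) * (b + 1) + (c + d + 3) * b) * (a + 1) + (b + c + d + 3) * a

theorem lossExp_add (a b c d : ℕ) :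
    lossExp a b c d + (a + b + c + d + 4) = 4 * ((d + 1) * (c + 1) * (b + 1) * (a + 1)) := by
  unfold lossExp
  ring

/-- Erdos-type supersaturation for complete four-partite configurations -/
theorem hom_lower {n : ℕ} (q : Fin n → Fin n → Fin n → Fin n → ℕ) (a b c d : ℕ) :
    (∑ r, ∑ r', ∑ c', ∑ d', q r r' c' d') ^ ((d + 1) * (c + 1) * (b + 1) * (a + 1))
      ≤ n ^ lossExp a b c d * homSum q a b c d := by
  have h1 := hom_step1 q d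
  have h2 := hom_step2 q c d
  have h3 := hom_step3 q b c d
  have h4 := hom_step4 q a b c d
  have k2 := chain_pow n _ _ _ _ _ c h1 h2
  have k3 := chain_pow n _ _ _ _ _ b k2 h3
  have k4 := chain_pow n _ _ _ _ _ a k3 h4
  rw [← pow_mul, ← pow_mul, ← pow_mul] at k4
  unfold lossExp
  rw [show (d + 1) * (c + 1) * (b + 1) * (a + 1)
    = (d + 1) * ((c + 1) * ((b + 1) * (a + 1))) by ring]
  exact k4

end Vale.Agent.Lib.P037.H19
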