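import Vale.Agent.Lib.P037.H19.Quad
import Vale.Agent.Lib.P037.H19.BlowPow

namespace Vale.Agent.Lib.P037.H19

open Finset

/-- the space of four tuples: two column tuples and two row tuples -/
abbrev Tup (n a b c d : ℕ) : Type :=
  (Fin (d + 1) → Fin n) × (Fin (c + 1) → Fin n) × (Fin (b + 1) → Fin n) × (Fin (a + 1) → Fin n)

/-- four tuples all of whose combinations lie in the set `Q` of quadruples -/
def homSet {n : ℕ} (Q : Finset (Fin n × Fin n × Fin n × Fin n)) (a b c d : ℕ) :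
    Finset (Tup n a b c d) :=
  univ.filter (fun z => ∀ i i' j j', (z.2.2.2 i, z.2.2.1 i', z.2.1 j, z.1 j') ∈ Q)

theorem mem_homSet {n : ℕ} (Q : Finset (Fin n × Fin n × Fin n × Fin n)) (a b c d : ℕ)
    (z : Tup n a b c d) :
    z ∈ homSet Q a b c d ↔ ∀ i i' j j', (z.2.2.2 i, z.2.2.1 i', z.2.1 j, z.1 j') ∈ Q := by
  simp [homSet]

theorem sum_ind_eq {n : ℕ} (Q : Finset (Fin n × Fin n × Fin n × Fin n)) :
    (∑ r, ∑ r', ∑ c', ∑ d', if (r, r', c', d') ∈ Q then 1 else 0) = Q.card := by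
  have h : Q.card = ∑ x : Fin n × Fin n × Fin n × Fin n, if x ∈ Q then 1 else 0 := by
    rw [Finset.sum_boole, Finset.filter_univ_mem]
    simp
  rw [h]
  simp only [Fintype.sum_prod_type]

theorem prod_ind_eq {n : ℕ} (Q : Finset (Fin n × Fin n × Fin n × Fin n)) (a b c d : ℕ)
    (ρ0 : Fin (a + 1) → Fin n) (ρ1 : Fin (b + 1) → Fin n) (γ0 : Fin (c + 1) → Fin n)
    (γ1 : Fin (d + 1) → Fin n) :
    (∏ i, ∏ i', ∏ j, ∏ j', if (ρ0 i, ρ1 i', γ0 j, γ1 j') ∈ Q then 1 else 0)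
      = if (∀ i i' j j', (ρ0 i, ρ1 i', γ0 j, γ1 j') ∈ Q) then 1 else 0 := by
  by_cases h : ∀ i i' j j', (ρ0 i, ρ1 i', γ0 j, γ1 j') ∈ Q
  · rw [if_pos h]
    exact Finset.prod_eq_one (fun i _ => Finset.prod_eq_one (fun i' _ =>
      Finset.prod_eq_one (fun j _ => Finset.prod_eq_one (fun j' _ => if_pos (h i i' j j')))))
  · rw [if_neg h]
    simp only [not_forall] at h
    obtain ⟨i, i', j, j', hn⟩ := h
    exact Finset.prod_eq_zero (mem_univ i) (Finset.prod_eq_zero (mem_univ i')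
      (Finset.prod_eq_zero (mem_univ j) (Finset.prod_eq_zero (mem_univ j') (if_neg hn))))

theorem homSum_ind_eq {n : ℕ} (Q : Finset (Fin n × Fin n × Fin n × Fin n)) (a b c d : ℕ) :
    homSum (fun r r' c' d' => if (r, r', c', d') ∈ Q then 1 else 0) a b c d
      = (homSet Q a b c d).card := by
  unfold homSum homSet
  rw [Finset.card_filter]
  simp only [Fintype.sum_prod_type]
  refine Finset.sum_congr rfl (fun γ1 _ => ?_)
  refine Finset.sum_congr rfl (fun γ0 _ => ?_)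
  refine Finset.sum_congr rfl (fun ρ1 _ => ?_)
  refine Finset.sum_congr rfl (fun ρ0 _ => ?_)
  exact prod_ind_eq Q a b c d ρ0 ρ1 γ0 γ1

/-- supersaturation for the set `Q` -/
theorem homSet_lower {n : ℕ} (Q : Finset (Fin n × Fin n × Fin n × Fin n)) (a b c d : ℕ) :
    Q.card ^ ((d + 1) * (c + 1) * (b + 1) * (a + 1))
      ≤ n ^ lossExp a b c d * (homSet Q a b c d).card := by
  have h := hom_lower (fun r r' c' d' => if (r, r', c', d') ∈ Q then 1 else 0) a b c d
  rw [sum_ind_eq, homSum_ind_eq] at h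
  exact h

end Vale.Agent.Lib.P037.H19
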