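import Vale.Agent.Lib.P037.AllTwo
import Vale.Agent.Lib.P037.H19.BlowGlue

namespace Vale.Agent.Lib.P037.H19

open Finset

/-- a matrix free of the `2 × 2` pattern is free of each of its block patterns -/
theorem block_free_of_free {n : ℕ} (H : Fin 2 → Fin 2 → Bool) (B : Fin n → Fin n → Bool)
    (a b c d : ℕ) (hk : a + 1 + (b + 1) = c + 1 + (d + 1)) (h : numCopies H B = 0) :
    numCopies (blockPattern H (a + 1 + (b + 1)) (a + 1) (c + 1)) B = 0 := by
  by_contra hcon
  have hpos : 0 < numCopies (blockPattern H (a + 1 + (b + 1)) (a + 1) (c + 1)) B :=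
    Nat.pos_of_ne_zero hcon
  unfold numCopies at hpos
  rw [Finset.card_pos] at hpos
  obtain ⟨⟨r, col⟩, hp⟩ := hpos
  rw [mem_filter] at hp
  obtain ⟨-, hr, hc, hB⟩ := hp
  have hi0 : (0 : ℕ) < a + 1 + (b + 1) := by omega
  have hi1 : a + 1 < a + 1 + (b + 1) := by omega
  have hj1 : c + 1 < a + 1 + (b + 1) := by omega
  have hmem : (r ⟨0, hi0⟩, r ⟨a + 1, hi1⟩, col ⟨0, hi0⟩, col ⟨c + 1, hj1⟩) ∈ quadSet H B := by
    rw [mem_quadSet]
    refine ⟨hr (by rw [Fin.lt_def]; simp), hc (by rw [Fin.lt_def]; simp), ?_, ?_, ?_, ?_⟩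
    · rw [hB]
      simp [blockPattern]
    · rw [hB]
      simp [blockPattern]
    · rw [hB]
      simp [blockPattern]
    · rw [hB]
      simp [blockPattern]
  rw [numCopies_two] at h
  rw [Finset.card_eq_zero] at h
  rw [h] at hmem
  exact absurd hmem (Finset.notMem_empty _)

/-- the final real-number step for block patterns -/
theorem blow_endgame (x K F N nn : ℝ) (P : ℕ) (hx0 : 0 < x) (hx1 : x ≤ 1) (hK : 1 ≤ K)
    (hF : 1 ≤ F) (hN : 1 ≤ N) (hn : 1 ≤ nn) (hP : 1 ≤ P)
    (h : x * nn ^ (P + 1) ≤ K * nn ^ P + F * N * nn) :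
    (x / (2 * K * F)) ^ P * nn ^ P ≤ N := by
  have hnn : 0 < nn := by linarith
  have hnP : 0 < nn ^ P := by positivity
  have hKF : 0 < 2 * K * F := by positivity
  have hy0 : 0 ≤ x / (2 * K * F) := by positivity
  have hy1 : x / (2 * K * F) ≤ 1 := by
    rw [div_le_one hKF]
    nlinarith
  rcases le_or_gt (2 * K) (nn * x) with hbig | hsmall
  · have h1 : K * nn ^ P ≤ x * nn ^ (P + 1) / 2 := by
      have e : x * nn ^ (P + 1) / 2 = (nn * x) / 2 * nn ^ P := by
        rw [pow_succ]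
        ring
      rw [e]
      have : K ≤ nn * x / 2 := by linarith
      exact mul_le_mul_of_nonneg_right this hnP.le
    have h2 : x * nn ^ (P + 1) / 2 ≤ F * N * nn := by linarith
    have h3 : x * nn ^ P / 2 ≤ F * N := by
      have e : x * nn ^ (P + 1) / 2 = x * nn ^ P / 2 * nn := by
        rw [pow_succ]
        ring
      rw [e] at h2
      exact le_of_mul_le_mul_right h2 hnn
    have h4 : x / (2 * F) * nn ^ P ≤ N := by
      have hF0 : 0 < F := by linarith
      have e : x / (2 * F) * nn ^ P = x * nn ^ P / 2 / F := by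
        field_simp
      rw [e, div_le_iff₀ hF0]
      linarith
    have h5 : (x / (2 * K * F)) ^ P ≤ x / (2 * F) := by
      have h6 : (x / (2 * K * F)) ^ P ≤ (x / (2 * K * F)) ^ 1 :=
        pow_le_pow_of_le_one hy0 hy1 hP
      rw [pow_one] at h6
      have h7 : x / (2 * K * F) ≤ x / (2 * F) := by
        apply div_le_div_of_nonneg_left hx0.le (by positivity)
        nlinarith
      linarith
    have h8 := mul_le_mul_of_nonneg_right h5 hnP.le
    linarith
  · have e : (x / (2 * K * F)) ^ P * nn ^ P = (nn * x / (2 * K * F)) ^ P := by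
      rw [← mul_pow]
      congr 1
      ring
    rw [e]
    have h1 : nn * x / (2 * K * F) ≤ 1 := by
      rw [div_le_one hKF]
      nlinarith
    have h2 : 0 ≤ nn * x / (2 * K * F) := by positivity
    have h3 : (nn * x / (2 * K * F)) ^ P ≤ 1 := pow_le_one₀ h2 h1
    linarith

/-- polynomial removal for the block patterns of a `2 × 2` pattern, sizes `a + 1`, `b + 1` for
the row blocks and `c + 1`, `d + 1` for the column blocks -/
theorem block_removal_aux (H : Fin 2 → Fin 2 → Bool) (a b c d : ℕ)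
    (hk : a + 1 + (b + 1) = c + 1 + (d + 1)) (n : ℕ) (ε : ℝ) (A : Fin n → Fin n → Bool)
    (hε : 0 < ε) (hε1 : ε < 1)
    (hfar : ∀ B : Fin n → Fin n → Bool,
      numCopies (blockPattern H (a + 1 + (b + 1)) (a + 1) (c + 1)) B = 0 →
      ε * (n : ℝ) ^ 2 ≤ (numDiff A B : ℝ)) :
    (((ε / 128) ^ 24) ^ ((d + 1) * (c + 1) * (b + 1) * (a + 1)) /
        (2 * (((d + 1) ^ 2 + (c + 1) ^ 2 + (b + 1) ^ 2 + (a + 1) ^ 2 : ℕ) : ℝ) *
          (((d + 1).factorial * ((c + 1).factorial * ((b + 1).factorial * (a + 1).factorial)) : ℕ) : ℝ)))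
        ^ (a + b + c + d + 4) * (n : ℝ) ^ (a + b + c + d + 4)
      ≤ (numCopies (blockPattern H (a + 1 + (b + 1)) (a + 1) (c + 1)) A : ℝ) := by
  set Hb := blockPattern H (a + 1 + (b + 1)) (a + 1) (c + 1) with hHb
  set T := (d + 1) * (c + 1) * (b + 1) * (a + 1) with hT
  set P := a + b + c + d + 4 with hP
  set K2 := (d + 1) ^ 2 + (c + 1) ^ 2 + (b + 1) ^ 2 + (a + 1) ^ 2 with hK2
  set F := (d + 1).factorial * ((c + 1).factorial * ((b + 1).factorial * (a + 1).factorial))
    with hF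
  rcases Nat.eq_zero_or_pos n with hn | hn
  · subst hn
    have hP1 : P ≠ 0 := by omega
    simp [hP1]
  have hn1 : (1 : ℝ) ≤ (n : ℝ) := by exact_mod_cast hn
  have hn0 : (0 : ℝ) < (n : ℝ) := by linarith
  -- the pattern occurs
  have hN : 1 ≤ numCopies Hb A := by
    by_contra hcon
    have h0 : numCopies Hb A = 0 := by omega
    have h := hfar A h0
    rw [numDiff_self] at h
    have hpos : 0 < ε * (n : ℝ) ^ 2 := by positivity
    simp only [Nat.cast_zero] at h
    linarith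
  -- many copies of the `2 × 2` pattern
  have hfar2 : ∀ B : Fin n → Fin n → Bool, numCopies H B = 0 →
      ε * (n : ℝ) ^ 2 ≤ (numDiff A B : ℝ) :=
    fun B hB => hfar B (block_free_of_free H B a b c d hk hB)
  have hQ := removal_two_by_two H n ε A hε hε1 hfar2
  rw [numCopies_two] at hQ
  set δ := (ε / 128) ^ 24 with hδ
  have hδ0 : 0 < δ := by positivity
  have hδ1 : δ ≤ 1 := by
    apply pow_le_one₀ (by positivity)
    rw [div_le_one (by norm_num)]
    linarith
  -- supersaturation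
  have h1 : ((quadSet H A).card : ℝ) ^ T
      ≤ (n : ℝ) ^ lossExp a b c d * ((homSet (quadSet H A) a b c d).card : ℝ) := by
    exact_mod_cast homSet_lower (quadSet H A) a b c d
  have h2 : (δ * (n : ℝ) ^ 4) ^ T ≤ ((quadSet H A).card : ℝ) ^ T :=
    pow_le_pow_left₀ (by positivity) hQ T
  have h3 : (δ * (n : ℝ) ^ 4) ^ T = (n : ℝ) ^ lossExp a b c d * (δ ^ T * (n : ℝ) ^ P) := by
    have e := lossExp_add a b c d
    have e2 : 4 * T = lossExp a b c d + P := by
      rw [hT, hP]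
      omega
    have e3 : ((n : ℝ) ^ 4) ^ T = (n : ℝ) ^ lossExp a b c d * (n : ℝ) ^ P := by
      rw [← pow_mul, e2, pow_add]
    rw [mul_pow, e3]
    ring
  have hnE : (0 : ℝ) < (n : ℝ) ^ lossExp a b c d := by positivity
  have h4 : δ ^ T * (n : ℝ) ^ P ≤ ((homSet (quadSet H A) a b c d).card : ℝ) := by
    have h5 : (n : ℝ) ^ lossExp a b c d * (δ ^ T * (n : ℝ) ^ P)
        ≤ (n : ℝ) ^ lossExp a b c d * ((homSet (quadSet H A) a b c d).card : ℝ) := by
      rw [← h3]
      exact h2.trans h1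
    exact le_of_mul_le_mul_left h5 hnE
  -- degenerate tuples and sorting
  have h6 : ((homSet (quadSet H A) a b c d).card : ℝ)
      ≤ ((degSet n a b c d).card : ℝ) + (numCopies Hb A : ℝ) * (F : ℝ) := by
    exact_mod_cast homSet_card_le H A a b c d hk
  have h7 : ((degSet n a b c d).card : ℝ) * (n : ℝ) ≤ (K2 : ℝ) * (n : ℝ) ^ P := by
    exact_mod_cast degSet_card_le n a b c d
  have h8 : δ ^ T * (n : ℝ) ^ (P + 1)
      ≤ (K2 : ℝ) * (n : ℝ) ^ P + (F : ℝ) * (numCopies Hb A : ℝ) * (n : ℝ) := by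
    have h9 : δ ^ T * (n : ℝ) ^ P * (n : ℝ)
        ≤ (((degSet n a b c d).card : ℝ) + (numCopies Hb A : ℝ) * (F : ℝ)) * (n : ℝ) :=
      mul_le_mul_of_nonneg_right (h4.trans h6) hn0.le
    have e : δ ^ T * (n : ℝ) ^ (P + 1) = δ ^ T * (n : ℝ) ^ P * (n : ℝ) := by
      rw [pow_succ]
      ring
    rw [e]
    nlinarith
  have hK : (1 : ℝ) ≤ (K2 : ℝ) := by
    have : 1 ≤ K2 := by
      rw [hK2]
      have : 1 ≤ (a + 1) ^ 2 := Nat.one_le_pow _ _ (by omega)
      omega
    exact_mod_cast this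
  have hF1 : (1 : ℝ) ≤ (F : ℝ) := by
    have : 1 ≤ F := by
      rw [hF]
      exact Nat.succ_le_of_lt (by positivity)
    exact_mod_cast this
  have hN' : (1 : ℝ) ≤ (numCopies Hb A : ℝ) := by exact_mod_cast hN
  exact blow_endgame (δ ^ T) (K2 : ℝ) (F : ℝ) (numCopies Hb A : ℝ) (n : ℝ) P (by positivity)
    (pow_le_one₀ hδ0.le hδ1) hK hF1 hN' hn1 (by omega) h8

end Vale.Agent.Lib.P037.H19
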