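import Vale.Agent.Lib.P037.H19.Quad

namespace Vale.Agent.Lib.P037.H19

open Finset

/-- the `2 × 2` pattern with rows `1 0` and `1 0` -/
def R2 : Fin 2 → Fin 2 → Bool := fun _ j => decide (j = 0)

/-- the number of ones of row `u` -/
def rowOnes {n : ℕ} (A : Fin n → Fin n → Bool) (u : Fin n) : ℕ :=
  (univ.filter (fun c => A u c = true)).card

/-- every row keeps its number of ones, moved to the right end of the row -/
def sortRows {n : ℕ} (A : Fin n → Fin n → Bool) : Fin n → Fin n → Bool :=
  fun u c => decide (n ≤ c.val + rowOnes A u)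

/-- the descents of row `u`: a one strictly to the left of a zero -/
def descSet {n : ℕ} (A : Fin n → Fin n → Bool) (u : Fin n) : Finset (Fin n × Fin n) :=
  univ.filter (fun p => p.1 < p.2 ∧ A u p.1 = true ∧ A u p.2 = false)

/-- the rows that have a descent at the pair of columns `p` -/
def descRows {n : ℕ} (A : Fin n → Fin n → Bool) (p : Fin n × Fin n) : Finset (Fin n) :=
  univ.filter (fun u => p.1 < p.2 ∧ A u p.1 = true ∧ A u p.2 = false)

/-- the entries of row `u` that change when the row is sorted -/
def rowDiff {n : ℕ} (A : Fin n → Fin n → Bool) (u : Fin n) : Finset (Fin n) :=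
  univ.filter (fun c => A u c ≠ sortRows A u c)

theorem rowOnes_le {n : ℕ} (A : Fin n → Fin n → Bool) (u : Fin n) : rowOnes A u ≤ n := by
  unfold rowOnes
  have h := Finset.card_le_univ (univ.filter (fun c : Fin n => A u c = true))
  rwa [Fintype.card_fin] at h

theorem card_ge_thr (n z : ℕ) (hz : z ≤ n) :
    (univ.filter (fun c : Fin n => n ≤ c.val + z)).card = z := by
  have h1 : (univ.filter (fun c : Fin n => n ≤ c.val + z)).card
      + (univ.filter (fun c : Fin n => ¬ (n ≤ c.val + z))).card = n := by
    have h := Finset.card_filter_add_card_filter_not (s := (univ : Finset (Fin n)))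
      (fun c : Fin n => n ≤ c.val + z)
    rw [Finset.card_univ, Fintype.card_fin] at h
    exact h
  have h2 : (univ.filter (fun c : Fin n => ¬ (n ≤ c.val + z)))
      = univ.filter (fun c : Fin n => c.val < n - z) := by
    ext c
    simp only [mem_filter, mem_univ, true_and]
    omega
  have h3 : (univ.filter (fun c : Fin n => c.val < n - z)).card = min n (n - z) :=
    Fin.card_filter_val_lt
  rw [h2, h3] at h1
  have h4 : min n (n - z) = n - z := min_eq_right (Nat.sub_le _ _)
  omega

theorem sortRows_free {n : ℕ} (A : Fin n → Fin n → Bool) :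
    (quadSet R2 (sortRows A)).card = 0 := by
  rw [Finset.card_eq_zero, Finset.eq_empty_iff_forall_notMem]
  rintro ⟨u, v, c, d⟩ hx
  rw [mem_quadSet] at hx
  obtain ⟨-, hcd, h1, h2, -, -⟩ := hx
  have e1 : R2 0 0 = true := by decide
  have e2 : R2 0 1 = false := by decide
  rw [e1] at h1
  rw [e2] at h2
  unfold sortRows at h1 h2
  have h1' : n ≤ c.val + rowOnes A u := of_decide_eq_true h1
  have h2' : ¬ (n ≤ d.val + rowOnes A u) := of_decide_eq_false h2
  have hcd' : c.val < d.val := hcd
  omega

/-- sorting row `u` changes `2 k` entries, and the row has at least `k ^ 2` descents -/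
theorem rowDiff_sq_le {n : ℕ} (A : Fin n → Fin n → Bool) (u : Fin n) :
    (rowDiff A u).card ^ 2 ≤ 4 * (descSet A u).card := by
  set P := univ.filter (fun c : Fin n => A u c = true ∧ ¬ (n ≤ c.val + rowOnes A u)) with hP
  set Q := univ.filter (fun c : Fin n => A u c = false ∧ n ≤ c.val + rowOnes A u) with hQ
  set P' := univ.filter (fun c : Fin n => A u c = true ∧ n ≤ c.val + rowOnes A u) with hP'
  have hzn : rowOnes A u ≤ n := rowOnes_le A u
  -- the changed entries
  have hdiff : rowDiff A u = P ∪ Q := by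
    ext c
    have hc : c ∈ rowDiff A u ↔ A u c ≠ decide (n ≤ c.val + rowOnes A u) := by
      unfold rowDiff sortRows
      rw [mem_filter]
      exact ⟨fun h => h.2, fun h => ⟨mem_univ _, h⟩⟩
    rw [hc, mem_union, hP, hQ, mem_filter, mem_filter]
    simp only [mem_univ, true_and]
    by_cases h1 : A u c = true
    · by_cases h2 : n ≤ c.val + rowOnes A u
      · simp [h1, h2]
      · simp [h1, h2]
    · have h1' : A u c = false := by simpa using h1
      by_cases h2 : n ≤ c.val + rowOnes A u
      · simp [h1', h2]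
      · simp [h1', h2]
  have hdisj : Disjoint P Q := by
    rw [Finset.disjoint_left]
    intro c hc hc'
    rw [hP, mem_filter] at hc
    rw [hQ, mem_filter] at hc'
    exact hc.2.2 hc'.2.2
  have hcard : (rowDiff A u).card = P.card + Q.card := by
    rw [hdiff, Finset.card_union_of_disjoint hdisj]
  -- the two halves have the same size
  have hz1 : P'.card + P.card = rowOnes A u := by
    have h := Finset.card_filter_add_card_filter_not
      (s := univ.filter (fun c : Fin n => A u c = true))
      (fun c : Fin n => n ≤ c.val + rowOnes A u)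
    rw [Finset.filter_filter, Finset.filter_filter] at h
    exact h
  have hz2 : P'.card + Q.card = rowOnes A u := by
    have h := Finset.card_filter_add_card_filter_not
      (s := univ.filter (fun c : Fin n => n ≤ c.val + rowOnes A u))
      (fun c : Fin n => A u c = true)
    rw [Finset.filter_filter, Finset.filter_filter, card_ge_thr n _ hzn] at h
    have e1 : univ.filter (fun c : Fin n => n ≤ c.val + rowOnes A u ∧ A u c = true) = P' := by
      ext c
      simp only [hP', mem_filter, mem_univ, true_and]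
      exact and_comm
    have e2 : univ.filter (fun c : Fin n => n ≤ c.val + rowOnes A u ∧ ¬ (A u c = true)) = Q := by
      ext c
      simp only [hQ, mem_filter, mem_univ, true_and]
      constructor
      · rintro ⟨h1, h2⟩
        exact ⟨by simpa using h2, h1⟩
      · rintro ⟨h1, h2⟩
        exact ⟨h2, by simp [h1]⟩
    rw [e1, e2] at h
    exact h
  have hPQ : P.card = Q.card := by omega
  -- every pair of `P × Q` is a descent
  have hsub : P ×ˢ Q ⊆ descSet A u := by
    rintro ⟨c, d⟩ hx
    have hc : c ∈ P := (mem_product.1 hx).1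
    have hd : d ∈ Q := (mem_product.1 hx).2
    rw [hP, mem_filter] at hc
    rw [hQ, mem_filter] at hd
    have h1 : ¬ (n ≤ c.val + rowOnes A u) := hc.2.2
    have h2 : n ≤ d.val + rowOnes A u := hd.2.2
    have hlt : c < d := by
      show c.val < d.val
      omega
    unfold descSet
    rw [mem_filter]
    exact ⟨mem_univ _, hlt, hc.2.1, hd.2.1⟩
  have hprod : P.card * Q.card ≤ (descSet A u).card := by
    rw [← Finset.card_product]
    exact card_le_card hsub
  rw [hcard, hPQ]
  rw [hPQ] at hprod
  nlinarith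

theorem numDiff_sortRows {n : ℕ} (A : Fin n → Fin n → Bool) :
    numDiff A (sortRows A) = ∑ u, (rowDiff A u).card := by
  unfold numDiff rowDiff
  rw [Finset.card_filter, Fintype.sum_prod_type]
  refine Finset.sum_congr rfl (fun u _ => ?_)
  rw [Finset.card_filter]

theorem sum_descSet {n : ℕ} (A : Fin n → Fin n → Bool) :
    ∑ u, (descSet A u).card = ∑ p, (descRows A p).card := by
  unfold descSet descRows
  have h1 : ∀ u : Fin n, (univ.filter (fun p : Fin n × Fin n =>
      p.1 < p.2 ∧ A u p.1 = true ∧ A u p.2 = false)).card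
      = ∑ p : Fin n × Fin n,
        if (p.1 < p.2 ∧ A u p.1 = true ∧ A u p.2 = false) then (1 : ℕ) else 0 :=
    fun u => Finset.card_filter _ _
  have h2 : ∀ p : Fin n × Fin n, (univ.filter (fun u : Fin n =>
      p.1 < p.2 ∧ A u p.1 = true ∧ A u p.2 = false)).card
      = ∑ u : Fin n,
        if (p.1 < p.2 ∧ A u p.1 = true ∧ A u p.2 = false) then (1 : ℕ) else 0 :=
    fun p => Finset.card_filter _ _
  rw [Finset.sum_congr rfl (fun u _ => h1 u), Finset.sum_congr rfl (fun p _ => h2 p),
    Finset.sum_comm]

/-- triples `(p, u, v)`: both rows `u` and `v` have a descent at the pair of columns `p` -/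
def descPairs {n : ℕ} (A : Fin n → Fin n → Bool) : Finset ((Fin n × Fin n) × Fin n × Fin n) :=
  univ.filter (fun x => (x.1.1 < x.1.2 ∧ A x.2.1 x.1.1 = true ∧ A x.2.1 x.1.2 = false) ∧
    (x.1.1 < x.1.2 ∧ A x.2.2 x.1.1 = true ∧ A x.2.2 x.1.2 = false))

theorem ite_and_mul (p q : Prop) [Decidable p] [Decidable q] :
    (if p ∧ q then 1 else 0) = (if p then 1 else 0) * (if q then (1 : ℕ) else 0) := by
  by_cases hp : p <;> by_cases hq : q <;> simp [hp, hq]

theorem sum_descRows_sq {n : ℕ} (A : Fin n → Fin n → Bool) :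
    ∑ p, (descRows A p).card ^ 2 = (descPairs A).card := by
  have hR : (descPairs A).card = ∑ p : Fin n × Fin n, ∑ u : Fin n, ∑ v : Fin n,
      if ((p.1 < p.2 ∧ A u p.1 = true ∧ A u p.2 = false) ∧
        (p.1 < p.2 ∧ A v p.1 = true ∧ A v p.2 = false)) then (1 : ℕ) else 0 := by
    unfold descPairs
    rw [Finset.card_filter]
    conv_lhs => rw [Fintype.sum_prod_type]
    refine Finset.sum_congr rfl (fun p _ => ?_)
    rw [Fintype.sum_prod_type]
  rw [hR]
  refine Finset.sum_congr rfl (fun p _ => ?_)
  unfold descRows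
  rw [sq, Finset.card_filter, Finset.sum_mul_sum]
  refine Finset.sum_congr rfl (fun u _ => ?_)
  refine Finset.sum_congr rfl (fun v _ => ?_)
  exact (ite_and_mul _ _).symm

theorem descPairs_card_le {n : ℕ} (A : Fin n → Fin n → Bool) :
    (descPairs A).card ≤ 2 * (quadSet R2 A).card + n ^ 3 := by
  set Q := quadSet R2 A with hQ
  set D := (univ : Finset (Fin n × Fin n × Fin n)).image
    (fun y => ((y.1, y.2.1), y.2.2, y.2.2)) with hD
  have e1 : R2 0 0 = true := by decide
  have e2 : R2 0 1 = false := by decide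
  have e3 : R2 1 0 = true := by decide
  have e4 : R2 1 1 = false := by decide
  have hsub : descPairs A ⊆ D ∪ (Q.image (fun x => ((x.2.2.1, x.2.2.2), x.1, x.2.1))
      ∪ Q.image (fun x => ((x.2.2.1, x.2.2.2), x.2.1, x.1))) := by
    rintro ⟨⟨c, d⟩, u, v⟩ hx
    simp only [descPairs, mem_filter, mem_univ, true_and] at hx
    obtain ⟨⟨hcd, h1, h2⟩, -, h3, h4⟩ := hx
    simp only [mem_union, mem_image]
    rcases lt_trichotomy u v with huv | huv | huv
    · right; left
      refine ⟨(u, v, c, d), ?_, rfl⟩
      rw [hQ, mem_quadSet, e1, e2, e3, e4]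
      exact ⟨huv, hcd, h1, h2, h3, h4⟩
    · left
      rw [hD, mem_image]
      refine ⟨(c, d, u), mem_univ _, ?_⟩
      rw [huv]
    · right; right
      refine ⟨(v, u, c, d), ?_, rfl⟩
      rw [hQ, mem_quadSet, e1, e2, e3, e4]
      exact ⟨huv, hcd, h3, h4, h1, h2⟩
  have hc1 : D.card ≤ n ^ 3 := by
    calc D.card ≤ (univ : Finset (Fin n × Fin n × Fin n)).card := card_image_le
      _ = n ^ 3 := by
        rw [Finset.card_univ, Fintype.card_prod, Fintype.card_prod, Fintype.card_fin]
        ring
  have hi1 : (Q.image (fun x : Fin n × Fin n × Fin n × Fin n =>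
      ((x.2.2.1, x.2.2.2), x.1, x.2.1))).card ≤ Q.card := card_image_le
  have hi2 : (Q.image (fun x : Fin n × Fin n × Fin n × Fin n =>
      ((x.2.2.1, x.2.2.2), x.2.1, x.1))).card ≤ Q.card := card_image_le
  have hle := card_le_card hsub
  have hu1 := card_union_le D (Q.image (fun x : Fin n × Fin n × Fin n × Fin n =>
      ((x.2.2.1, x.2.2.2), x.1, x.2.1))
      ∪ Q.image (fun x : Fin n × Fin n × Fin n × Fin n => ((x.2.2.1, x.2.2.2), x.2.1, x.1)))
  have hu2 := card_union_le (Q.image (fun x : Fin n × Fin n × Fin n × Fin n =>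
      ((x.2.2.1, x.2.2.2), x.1, x.2.1)))
      (Q.image (fun x : Fin n × Fin n × Fin n × Fin n => ((x.2.2.1, x.2.2.2), x.2.1, x.1)))
  omega

/-- the counting inequality behind the removal bound for the pattern with two equal rows -/
theorem eqRows_count {n : ℕ} (A : Fin n → Fin n → Bool) :
    numDiff A (sortRows A) ^ 4 ≤ 16 * n ^ 4 * (2 * (quadSet R2 A).card + n ^ 3) := by
  set M := ∑ u, (descSet A u).card with hM
  -- the cost of sorting against the number of descents
  have h1 : numDiff A (sortRows A) ^ 2 ≤ 4 * n * M := by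
    rw [numDiff_sortRows]
    have h := sq_sum_le_card_mul_sum_sq (s := (univ : Finset (Fin n)))
      (f := fun u => (rowDiff A u).card)
    rw [Finset.card_univ, Fintype.card_fin] at h
    have h' : (∑ u, (rowDiff A u).card) ^ 2 ≤ n * ∑ u, (rowDiff A u).card ^ 2 := by
      exact_mod_cast h
    have h2 : ∑ u, (rowDiff A u).card ^ 2 ≤ ∑ u, 4 * (descSet A u).card :=
      Finset.sum_le_sum (fun u _ => rowDiff_sq_le A u)
    rw [← Finset.mul_sum] at h2
    calc (∑ u, (rowDiff A u).card) ^ 2 ≤ n * ∑ u, (rowDiff A u).card ^ 2 := h'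
      _ ≤ n * (4 * M) := Nat.mul_le_mul_left _ h2
      _ = 4 * n * M := by ring
  -- the number of descents against the number of copies
  have h3 : M ^ 2 ≤ n ^ 2 * (2 * (quadSet R2 A).card + n ^ 3) := by
    rw [hM, sum_descSet]
    have h := sq_sum_le_card_mul_sum_sq (s := (univ : Finset (Fin n × Fin n)))
      (f := fun p => (descRows A p).card)
    rw [Finset.card_univ, Fintype.card_prod, Fintype.card_fin] at h
    have h' : (∑ p, (descRows A p).card) ^ 2 ≤ n * n * ∑ p, (descRows A p).card ^ 2 := by
      exact_mod_cast h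
    rw [sum_descRows_sq] at h'
    have h4 := descPairs_card_le A
    calc (∑ p, (descRows A p).card) ^ 2 ≤ n * n * (descPairs A).card := h'
      _ ≤ n * n * (2 * (quadSet R2 A).card + n ^ 3) := Nat.mul_le_mul_left _ h4
      _ = n ^ 2 * (2 * (quadSet R2 A).card + n ^ 3) := by ring
  have h5 : numDiff A (sortRows A) ^ 4 = (numDiff A (sortRows A) ^ 2) ^ 2 := by ring
  rw [h5]
  calc (numDiff A (sortRows A) ^ 2) ^ 2 ≤ (4 * n * M) ^ 2 := Nat.pow_le_pow_left h1 2
    _ = 16 * n ^ 2 * M ^ 2 := by ring
    _ ≤ 16 * n ^ 2 * (n ^ 2 * (2 * (quadSet R2 A).card + n ^ 3)) := Nat.mul_le_mul_left _ h3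
    _ = 16 * n ^ 4 * (2 * (quadSet R2 A).card + n ^ 3) := by ring

end Vale.Agent.Lib.P037.H19
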