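import Vale.Agent.Lib.P037.H19.Quad

namespace Vale.Agent.Lib.P037.H19

open Finset

/-- the value `0` or `1` of a truth value -/
def ind (b : Bool) : ℕ := if b then 1 else 0

/-- the all-ones `2 × 2` pattern -/
def J2 : Fin 2 → Fin 2 → Bool := fun _ _ => true

/-- the number of ones of a matrix -/
def numOnes {n : ℕ} (A : Fin n → Fin n → Bool) : ℕ :=
  (univ.filter (fun p : Fin n × Fin n => A p.1 p.2 = true)).card

/-- the number of ones in column `c` -/
def colDeg {n : ℕ} (A : Fin n → Fin n → Bool) (c : Fin n) : ℕ := ∑ u, ind (A u c)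

/-- the number of common ones of the rows `u` and `v` -/
def codeg {n : ℕ} (A : Fin n → Fin n → Bool) (u v : Fin n) : ℕ :=
  ∑ c, ind (A u c) * ind (A v c)

/-- quadruples `(u, v, c, d)`, in any order, whose four entries are ones -/
def allOnes {n : ℕ} (A : Fin n → Fin n → Bool) : Finset (Fin n × Fin n × Fin n × Fin n) :=
  univ.filter (fun x => A x.1 x.2.2.1 = true ∧ A x.1 x.2.2.2 = true ∧
    A x.2.1 x.2.2.1 = true ∧ A x.2.1 x.2.2.2 = true)

theorem ind_mul4 (a b c d : Bool) :
    (if a = true ∧ b = true ∧ c = true ∧ d = true then 1 else 0)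
      = ind a * ind c * (ind b * ind d) := by
  cases a <;> cases b <;> cases c <;> cases d <;> rfl

theorem numOnes_eq {n : ℕ} (A : Fin n → Fin n → Bool) : numOnes A = ∑ c, colDeg A c := by
  unfold numOnes colDeg
  rw [Finset.card_filter, Fintype.sum_prod_type, Finset.sum_comm]
  rfl

theorem sum_colDeg_sq {n : ℕ} (A : Fin n → Fin n → Bool) :
    ∑ c, colDeg A c ^ 2 = ∑ u, ∑ v, codeg A u v := by
  unfold colDeg codeg
  have h : ∀ c : Fin n, (∑ u, ind (A u c)) ^ 2 = ∑ u, ∑ v, ind (A u c) * ind (A v c) := by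
    intro c
    rw [sq, Finset.sum_mul_sum]
  rw [Finset.sum_congr rfl (fun c _ => h c), Finset.sum_comm]
  refine Finset.sum_congr rfl (fun u _ => ?_)
  rw [Finset.sum_comm]

theorem sum_codeg_sq {n : ℕ} (A : Fin n → Fin n → Bool) :
    ∑ u, ∑ v, codeg A u v ^ 2 = (allOnes A).card := by
  unfold allOnes codeg
  rw [Finset.card_filter, Fintype.sum_prod_type]
  refine Finset.sum_congr rfl (fun u _ => ?_)
  rw [Fintype.sum_prod_type]
  refine Finset.sum_congr rfl (fun v _ => ?_)
  rw [Fintype.sum_prod_type, sq, Finset.sum_mul_sum]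
  refine Finset.sum_congr rfl (fun c _ => ?_)
  refine Finset.sum_congr rfl (fun d _ => ?_)
  exact (ind_mul4 (A u c) (A u d) (A v c) (A v d)).symm

theorem allOnes_card_le {n : ℕ} (A : Fin n → Fin n → Bool) :
    (allOnes A).card ≤ 4 * (quadSet J2 A).card + 2 * n ^ 3 := by
  set Q := quadSet J2 A with hQ
  set D1 := (univ.filter (fun x : Fin n × Fin n × Fin n × Fin n => x.1 = x.2.1 ∧ True)) with hD1
  set D2 := (univ.filter (fun x : Fin n × Fin n × Fin n × Fin n => x.2.2.1 = x.2.2.2 ∧ True))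
    with hD2
  have hsub : allOnes A ⊆ D1 ∪ D2 ∪ (Q ∪ Q.image (fun x => (x.2.1, x.1, x.2.2.1, x.2.2.2)))
      ∪ (Q.image (fun x => (x.1, x.2.1, x.2.2.2, x.2.2.1))
        ∪ Q.image (fun x => (x.2.1, x.1, x.2.2.2, x.2.2.1))) := by
    rintro ⟨u, v, c, d⟩ hx
    simp only [allOnes, mem_filter, mem_univ, true_and] at hx
    obtain ⟨h1, h2, h3, h4⟩ := hx
    simp only [mem_union, mem_image]
    rcases lt_trichotomy u v with huv | huv | huv
    · rcases lt_trichotomy c d with hcd | hcd | hcd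
      · left; right; left
        rw [hQ, mem_quadSet]
        exact ⟨huv, hcd, h1, h2, h3, h4⟩
      · left; left; right
        rw [hD2, mem_filter]
        exact ⟨mem_univ _, hcd, trivial⟩
      · right; left
        refine ⟨(u, v, d, c), ?_, rfl⟩
        rw [hQ, mem_quadSet]
        exact ⟨huv, hcd, h2, h1, h4, h3⟩
    · left; left; left
      rw [hD1, mem_filter]
      exact ⟨mem_univ _, huv, trivial⟩
    · rcases lt_trichotomy c d with hcd | hcd | hcd
      · left; right; right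
        refine ⟨(v, u, c, d), ?_, rfl⟩
        rw [hQ, mem_quadSet]
        exact ⟨huv, hcd, h3, h4, h1, h2⟩
      · left; left; right
        rw [hD2, mem_filter]
        exact ⟨mem_univ _, hcd, trivial⟩
      · right; right
        refine ⟨(v, u, d, c), ?_, rfl⟩
        rw [hQ, mem_quadSet]
        exact ⟨huv, hcd, h4, h3, h2, h1⟩
  have hc1 : D1.card ≤ n ^ 3 := card_diag_le (fun _ => True)
  have hc2 : D2.card ≤ n ^ 3 := card_diag_le' (fun _ => True)
  have hi1 : (Q.image (fun x : Fin n × Fin n × Fin n × Fin n =>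
      (x.2.1, x.1, x.2.2.1, x.2.2.2))).card ≤ Q.card := card_image_le
  have hi2 : (Q.image (fun x : Fin n × Fin n × Fin n × Fin n =>
      (x.1, x.2.1, x.2.2.2, x.2.2.1))).card ≤ Q.card := card_image_le
  have hi3 : (Q.image (fun x : Fin n × Fin n × Fin n × Fin n =>
      (x.2.1, x.1, x.2.2.2, x.2.2.1))).card ≤ Q.card := card_image_le
  have hle := card_le_card hsub
  have hu1 := card_union_le (D1 ∪ D2 ∪ (Q ∪ Q.image (fun x : Fin n × Fin n × Fin n × Fin n =>
      (x.2.1, x.1, x.2.2.1, x.2.2.2))))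
    (Q.image (fun x : Fin n × Fin n × Fin n × Fin n => (x.1, x.2.1, x.2.2.2, x.2.2.1))
        ∪ Q.image (fun x : Fin n × Fin n × Fin n × Fin n => (x.2.1, x.1, x.2.2.2, x.2.2.1)))
  have hu2 := card_union_le (D1 ∪ D2) (Q ∪ Q.image (fun x : Fin n × Fin n × Fin n × Fin n =>
      (x.2.1, x.1, x.2.2.1, x.2.2.2)))
  have hu3 := card_union_le D1 D2
  have hu4 := card_union_le Q (Q.image (fun x : Fin n × Fin n × Fin n × Fin n =>
      (x.2.1, x.1, x.2.2.1, x.2.2.2)))
  have hu5 := card_union_le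
    (Q.image (fun x : Fin n × Fin n × Fin n × Fin n => (x.1, x.2.1, x.2.2.2, x.2.2.1)))
    (Q.image (fun x : Fin n × Fin n × Fin n × Fin n => (x.2.1, x.1, x.2.2.2, x.2.2.1)))
  omega

/-- the counting inequality behind supersaturation of the all-ones pattern -/
theorem ones_count {n : ℕ} (A : Fin n → Fin n → Bool) :
    numOnes A ^ 4 ≤ n ^ 4 * (4 * (quadSet J2 A).card + 2 * n ^ 3) := by
  have h1 : numOnes A ^ 2 ≤ n * ∑ c, colDeg A c ^ 2 := by
    rw [numOnes_eq]
    have h := sq_sum_le_card_mul_sum_sq (s := (univ : Finset (Fin n))) (f := colDeg A)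
    rw [Finset.card_univ, Fintype.card_fin] at h
    exact_mod_cast h
  have h2 : (∑ u, ∑ v, codeg A u v) ^ 2 ≤ n ^ 2 * ∑ u, ∑ v, codeg A u v ^ 2 := by
    have h := sq_sum_le_card_mul_sum_sq (s := (univ : Finset (Fin n × Fin n)))
      (f := fun p : Fin n × Fin n => codeg A p.1 p.2)
    rw [Finset.card_univ, Fintype.card_prod, Fintype.card_fin, Fintype.sum_prod_type,
      Fintype.sum_prod_type] at h
    have e : n ^ 2 = n * n := by ring
    rw [e]
    exact_mod_cast h
  rw [sum_colDeg_sq] at h1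
  rw [sum_codeg_sq] at h2
  have h3 := allOnes_card_le A
  set G := ∑ u, ∑ v, codeg A u v
  set S := (allOnes A).card
  set N := (quadSet J2 A).card
  have h4 : numOnes A ^ 4 = (numOnes A ^ 2) ^ 2 := by ring
  rw [h4]
  calc (numOnes A ^ 2) ^ 2 ≤ (n * G) ^ 2 := Nat.pow_le_pow_left h1 2
    _ = n ^ 2 * G ^ 2 := by ring
    _ ≤ n ^ 2 * (n ^ 2 * S) := Nat.mul_le_mul_left _ h2
    _ = n ^ 4 * S := by ring
    _ ≤ n ^ 4 * (4 * N + 2 * n ^ 3) := Nat.mul_le_mul_left _ h3

end Vale.Agent.Lib.P037.H19
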