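import Vale.Agent.Lib.P037.Perm

namespace Vale.Agent.Lib.P037.H19

open Finset

/-- quadruples `(u, v, c, d)` with `u < v`, `c < d` on which `A` shows the `2 × 2` pattern `H` -/
def quadSet {n : ℕ} (H : Fin 2 → Fin 2 → Bool) (A : Fin n → Fin n → Bool) :
    Finset (Fin n × Fin n × Fin n × Fin n) :=
  univ.filter (fun x => x.1 < x.2.1 ∧ x.2.2.1 < x.2.2.2 ∧ A x.1 x.2.2.1 = H 0 0 ∧
    A x.1 x.2.2.2 = H 0 1 ∧ A x.2.1 x.2.2.1 = H 1 0 ∧ A x.2.1 x.2.2.2 = H 1 1)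

theorem mem_quadSet {n : ℕ} (H : Fin 2 → Fin 2 → Bool) (A : Fin n → Fin n → Bool)
    (u v c d : Fin n) :
    (u, v, c, d) ∈ quadSet H A ↔ u < v ∧ c < d ∧ A u c = H 0 0 ∧ A u d = H 0 1 ∧
      A v c = H 1 0 ∧ A v d = H 1 1 := by
  simp [quadSet]

theorem numCopies_two {n : ℕ} (H : Fin 2 → Fin 2 → Bool) (A : Fin n → Fin n → Bool) :
    numCopies H A = (quadSet H A).card := by
  unfold numCopies
  refine Finset.card_bij (fun p _ => (p.1 0, p.1 1, p.2 0, p.2 1)) ?_ ?_ ?_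
  · rintro ⟨r, c⟩ hp
    simp only [mem_filter, mem_univ, true_and] at hp
    obtain ⟨hr, hc, hA⟩ := hp
    rw [mem_quadSet]
    exact ⟨hr (by decide), hc (by decide), hA 0 0, hA 0 1, hA 1 0, hA 1 1⟩
  · rintro ⟨r, c⟩ _ ⟨r', c'⟩ _ h
    simp only [Prod.mk.injEq] at h
    obtain ⟨h1, h2, h3, h4⟩ := h
    have hr : r = r' := by
      funext i
      fin_cases i
      · exact h1
      · exact h2
    have hc : c = c' := by
      funext i
      fin_cases i
      · exact h3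
      · exact h4
    rw [hr, hc]
  · rintro ⟨u, v, c1, c2⟩ hx
    rw [mem_quadSet] at hx
    obtain ⟨huv, hc12, e1, e2, e3, e4⟩ := hx
    refine ⟨(![u, v], ![c1, c2]), ?_, rfl⟩
    simp only [mem_filter, mem_univ, true_and]
    refine ⟨?_, ?_, ?_⟩
    · intro i j hij
      fin_cases i <;> fin_cases j <;> simp_all
    · intro i j hij
      fin_cases i <;> fin_cases j <;> simp_all
    · intro i j
      fin_cases i <;> fin_cases j
      · exact e1
      · exact e2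
      · exact e3
      · exact e4

/-- quadruples with equal first two coordinates are at most `n ^ 3` -/
theorem card_diag_le {n : ℕ} (P : Fin n × Fin n × Fin n × Fin n → Prop) [DecidablePred P] :
    (univ.filter (fun x : Fin n × Fin n × Fin n × Fin n => x.1 = x.2.1 ∧ P x)).card ≤ n ^ 3 := by
  have h : (univ.filter (fun x : Fin n × Fin n × Fin n × Fin n => x.1 = x.2.1 ∧ P x))
      ⊆ (univ : Finset (Fin n × Fin n × Fin n)).image (fun y => (y.1, y.1, y.2.1, y.2.2)) := by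
    intro x hx
    rw [mem_filter] at hx
    rw [mem_image]
    refine ⟨(x.1, x.2.2.1, x.2.2.2), mem_univ _, ?_⟩
    obtain ⟨u, v, c, d⟩ := x
    have huv : u = v := hx.2.1
    rw [huv]
  calc (univ.filter (fun x : Fin n × Fin n × Fin n × Fin n => x.1 = x.2.1 ∧ P x)).card
      ≤ ((univ : Finset (Fin n × Fin n × Fin n)).image
          (fun y => (y.1, y.1, y.2.1, y.2.2))).card := card_le_card h
    _ ≤ (univ : Finset (Fin n × Fin n × Fin n)).card := card_image_le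
    _ = n ^ 3 := by
        rw [Finset.card_univ, Fintype.card_prod, Fintype.card_prod, Fintype.card_fin]
        ring

/-- quadruples with equal last two coordinates are at most `n ^ 3` -/
theorem card_diag_le' {n : ℕ} (P : Fin n × Fin n × Fin n × Fin n → Prop) [DecidablePred P] :
    (univ.filter (fun x : Fin n × Fin n × Fin n × Fin n => x.2.2.1 = x.2.2.2 ∧ P x)).card
      ≤ n ^ 3 := by
  have h : (univ.filter (fun x : Fin n × Fin n × Fin n × Fin n => x.2.2.1 = x.2.2.2 ∧ P x))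
      ⊆ (univ : Finset (Fin n × Fin n × Fin n)).image (fun y => (y.1, y.2.1, y.2.2, y.2.2)) := by
    intro x hx
    rw [mem_filter] at hx
    rw [mem_image]
    refine ⟨(x.1, x.2.1, x.2.2.2), mem_univ _, ?_⟩
    obtain ⟨u, v, c, d⟩ := x
    have hcd : c = d := hx.2.1
    rw [hcd]
  calc (univ.filter (fun x : Fin n × Fin n × Fin n × Fin n => x.2.2.1 = x.2.2.2 ∧ P x)).card
      ≤ ((univ : Finset (Fin n × Fin n × Fin n)).image
          (fun y => (y.1, y.2.1, y.2.2, y.2.2))).card := card_le_card h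
    _ ≤ (univ : Finset (Fin n × Fin n × Fin n)).card := card_image_le
    _ = n ^ 3 := by
        rw [Finset.card_univ, Fintype.card_prod, Fintype.card_prod, Fintype.card_fin]
        ring

theorem numDiff_self {n : ℕ} (A : Fin n → Fin n → Bool) : numDiff A A = 0 := by
  simp [numDiff]

/-- the final real-number step shared by the all-ones and the equal-rows patterns -/
theorem endgame (n N : ℕ) (ε : ℝ) (hε : 0 < ε) (hε1 : ε < 1) (hN : 1 ≤ n → 1 ≤ N)
    (h : ε ^ 4 * (n : ℝ) ^ 4 ≤ 32 * (N : ℝ) + 16 * (n : ℝ) ^ 3) :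
    (ε / 128) ^ 24 * (n : ℝ) ^ 4 ≤ (N : ℝ) := by
  rcases Nat.eq_zero_or_pos n with hn | hn
  · subst hn
    simp
  have hN1 : (1 : ℝ) ≤ (N : ℝ) := by exact_mod_cast hN hn
  have hn1 : (1 : ℝ) ≤ (n : ℝ) := by exact_mod_cast hn
  have hn0 : (0 : ℝ) < (n : ℝ) := by linarith
  have e1 : (ε / 128) ^ 24 = ε ^ 24 / 128 ^ 24 := by rw [div_pow]
  have hε4 : 0 < ε ^ 4 := by positivity
  have hε24 : ε ^ 24 ≤ ε ^ 4 := by
    have : ε ^ 24 = ε ^ 4 * ε ^ 20 := by ring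
    rw [this]
    have h20 : ε ^ 20 ≤ 1 := pow_le_one₀ hε.le hε1.le
    nlinarith
  rcases le_or_gt 32 (ε ^ 4 * (n : ℝ)) with hbig | hsmall
  · -- large n
    have h3 : 16 * (n : ℝ) ^ 3 ≤ ε ^ 4 * (n : ℝ) ^ 4 / 2 := by
      have hn3 : (0 : ℝ) ≤ (n : ℝ) ^ 3 := by positivity
      have := mul_le_mul_of_nonneg_right hbig hn3
      have e : ε ^ 4 * (n : ℝ) * (n : ℝ) ^ 3 = ε ^ 4 * (n : ℝ) ^ 4 := by ring
      rw [e] at this
      linarith
    have h4 : ε ^ 4 * (n : ℝ) ^ 4 / 64 ≤ (N : ℝ) := by linarith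
    have h5 : (ε / 128) ^ 24 * (n : ℝ) ^ 4 ≤ ε ^ 4 * (n : ℝ) ^ 4 / 64 := by
      have hn4 : (0 : ℝ) ≤ (n : ℝ) ^ 4 := by positivity
      have h6 : (ε / 128) ^ 24 ≤ ε ^ 4 / 64 := by
        rw [e1]
        have h7 : ε ^ 24 / 128 ^ 24 ≤ ε ^ 4 / 128 ^ 24 :=
          div_le_div_of_nonneg_right hε24 (by positivity)
        have h8 : ε ^ 4 / (128 : ℝ) ^ 24 ≤ ε ^ 4 / 64 :=
          div_le_div_of_nonneg_left hε4.le (by norm_num) (by norm_num)
        linarith
      have := mul_le_mul_of_nonneg_right h6 hn4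
      linarith
    linarith
  · -- small n
    have hx : 0 ≤ ε ^ 4 * (n : ℝ) := by positivity
    have h16 : (ε ^ 4 * (n : ℝ)) ^ 4 ≤ 32 ^ 4 := pow_le_pow_left₀ hx hsmall.le 4
    have e2 : (ε / 128) ^ 24 * (n : ℝ) ^ 4 = ε ^ 8 * (ε ^ 4 * (n : ℝ)) ^ 4 / 128 ^ 24 := by
      rw [e1]
      ring
    rw [e2]
    have hε8 : ε ^ 8 ≤ 1 := pow_le_one₀ hε.le hε1.le
    have hε8' : 0 ≤ ε ^ 8 := by positivity
    have h9 : ε ^ 8 * (ε ^ 4 * (n : ℝ)) ^ 4 ≤ 1 * 32 ^ 4 :=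
      mul_le_mul hε8 h16 (by positivity) (by norm_num)
    have h10 : ε ^ 8 * (ε ^ 4 * (n : ℝ)) ^ 4 / 128 ^ 24 ≤ 1 * 32 ^ 4 / 128 ^ 24 :=
      div_le_div_of_nonneg_right h9 (by positivity)
    have h11 : (1 : ℝ) * 32 ^ 4 / 128 ^ 24 ≤ 1 := by norm_num
    linarith

end Vale.Agent.Lib.P037.H19
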