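import Vale.Agent.Lib.P037.Perm
import Vale.Agent.Lib.P037.H19.Ones
import Vale.Agent.Lib.P037.H19.EqRows

namespace Vale.Agent.Lib.P037

open Finset

/-- reversal of the row order -/
def revRows {k n : ℕ} (A : Fin k → Fin n → Bool) : Fin k → Fin n → Bool :=
  fun r c => A (Fin.rev r) c

/-- reversal of the column order -/
def revCols {k n : ℕ} (A : Fin k → Fin n → Bool) : Fin k → Fin n → Bool :=
  fun r c => A r (Fin.rev c)

/-- transposition -/
def transp {k : ℕ} (A : Fin k → Fin k → Bool) : Fin k → Fin k → Bool := fun r c => A c r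

theorem strictMono_rev_comp_rev {k n : ℕ} (f : Fin k → Fin n) (hf : StrictMono f) :
    StrictMono (fun i => Fin.rev (f (Fin.rev i))) := by
  intro i j hij
  exact Fin.rev_lt_rev.2 (hf (Fin.rev_lt_rev.2 hij))

theorem rev_comp_rev_invol {k n : ℕ} (f : Fin k → Fin n) :
    (fun i => Fin.rev ((fun j => Fin.rev (f (Fin.rev j))) (Fin.rev i))) = f := by
  funext i
  simp

theorem numCopies_revRows {k n : ℕ} (H : Fin k → Fin k → Bool) (A : Fin n → Fin n → Bool) :
    numCopies (revRows H) (revRows A) = numCopies H A := by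
  unfold numCopies
  refine Finset.card_nbij' (fun p => (fun i => Fin.rev (p.1 (Fin.rev i)), p.2))
    (fun p => (fun i => Fin.rev (p.1 (Fin.rev i)), p.2)) ?_ ?_ ?_ ?_
  · rintro ⟨r, c⟩ hp
    simp only [coe_filter, mem_univ, true_and, Set.mem_ofPred_eq] at hp ⊢
    obtain ⟨hr, hc, hA⟩ := hp
    refine ⟨strictMono_rev_comp_rev r hr, hc, fun i j => ?_⟩
    have h := hA (Fin.rev i) j
    simpa [revRows] using h
  · rintro ⟨r, c⟩ hp
    simp only [coe_filter, mem_univ, true_and, Set.mem_ofPred_eq] at hp ⊢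
    obtain ⟨hr, hc, hA⟩ := hp
    refine ⟨strictMono_rev_comp_rev r hr, hc, fun i j => ?_⟩
    have h := hA (Fin.rev i) j
    simpa [revRows] using h
  · rintro ⟨r, c⟩ _
    simp
  · rintro ⟨r, c⟩ _
    simp

theorem numDiff_revRows {n : ℕ} (A B : Fin n → Fin n → Bool) :
    numDiff (revRows A) (revRows B) = numDiff A B := by
  unfold numDiff
  refine Finset.card_nbij' (fun p => (Fin.rev p.1, p.2)) (fun p => (Fin.rev p.1, p.2))
    ?_ ?_ ?_ ?_
  · rintro ⟨r, c⟩ hp
    simp only [coe_filter, mem_univ, true_and, Set.mem_ofPred_eq] at hp ⊢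
    exact hp
  · rintro ⟨r, c⟩ hp
    simp only [coe_filter, mem_univ, true_and, Set.mem_ofPred_eq] at hp ⊢
    simpa [revRows] using hp
  · rintro ⟨r, c⟩ _
    simp
  · rintro ⟨r, c⟩ _
    simp

theorem numCopies_revCols {k n : ℕ} (H : Fin k → Fin k → Bool) (A : Fin n → Fin n → Bool) :
    numCopies (revCols H) (revCols A) = numCopies H A := by
  unfold numCopies
  refine Finset.card_nbij' (fun p => (p.1, fun i => Fin.rev (p.2 (Fin.rev i))))
    (fun p => (p.1, fun i => Fin.rev (p.2 (Fin.rev i)))) ?_ ?_ ?_ ?_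
  · rintro ⟨r, c⟩ hp
    simp only [coe_filter, mem_univ, true_and, Set.mem_ofPred_eq] at hp ⊢
    obtain ⟨hr, hc, hA⟩ := hp
    refine ⟨hr, strictMono_rev_comp_rev c hc, fun i j => ?_⟩
    have h := hA i (Fin.rev j)
    simpa [revCols] using h
  · rintro ⟨r, c⟩ hp
    simp only [coe_filter, mem_univ, true_and, Set.mem_ofPred_eq] at hp ⊢
    obtain ⟨hr, hc, hA⟩ := hp
    refine ⟨hr, strictMono_rev_comp_rev c hc, fun i j => ?_⟩
    have h := hA i (Fin.rev j)
    simpa [revCols] using h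
  · rintro ⟨r, c⟩ _
    simp
  · rintro ⟨r, c⟩ _
    simp

theorem numDiff_revCols {n : ℕ} (A B : Fin n → Fin n → Bool) :
    numDiff (revCols A) (revCols B) = numDiff A B := by
  unfold numDiff
  refine Finset.card_nbij' (fun p => (p.1, Fin.rev p.2)) (fun p => (p.1, Fin.rev p.2))
    ?_ ?_ ?_ ?_
  · rintro ⟨r, c⟩ hp
    simp only [coe_filter, mem_univ, true_and, Set.mem_ofPred_eq] at hp ⊢
    exact hp
  · rintro ⟨r, c⟩ hp
    simp only [coe_filter, mem_univ, true_and, Set.mem_ofPred_eq] at hp ⊢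
    simpa [revCols] using hp
  · rintro ⟨r, c⟩ _
    simp
  · rintro ⟨r, c⟩ _
    simp

theorem numCopies_transp {k n : ℕ} (H : Fin k → Fin k → Bool) (A : Fin n → Fin n → Bool) :
    numCopies (transp H) (transp A) = numCopies H A := by
  unfold numCopies
  refine Finset.card_nbij' (fun p => (p.2, p.1)) (fun p => (p.2, p.1)) ?_ ?_ ?_ ?_
  · rintro ⟨r, c⟩ hp
    simp only [coe_filter, mem_univ, true_and, Set.mem_ofPred_eq] at hp ⊢
    obtain ⟨hr, hc, hA⟩ := hp
    exact ⟨hc, hr, fun i j => hA j i⟩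
  · rintro ⟨r, c⟩ hp
    simp only [coe_filter, mem_univ, true_and, Set.mem_ofPred_eq] at hp ⊢
    obtain ⟨hr, hc, hA⟩ := hp
    exact ⟨hc, hr, fun i j => hA j i⟩
  · rintro ⟨r, c⟩ _
    rfl
  · rintro ⟨r, c⟩ _
    rfl

theorem numDiff_transp {n : ℕ} (A B : Fin n → Fin n → Bool) :
    numDiff (transp A) (transp B) = numDiff A B := by
  unfold numDiff
  refine Finset.card_nbij' (fun p => (p.2, p.1)) (fun p => (p.2, p.1)) ?_ ?_ ?_ ?_
  · rintro ⟨r, c⟩ hp
    simp only [coe_filter, mem_univ, true_and, Set.mem_ofPred_eq] at hp ⊢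
    exact hp
  · rintro ⟨r, c⟩ hp
    simp only [coe_filter, mem_univ, true_and, Set.mem_ofPred_eq] at hp ⊢
    exact hp
  · rintro ⟨r, c⟩ _
    rfl
  · rintro ⟨r, c⟩ _
    rfl

/-- the all-ones pattern -/
def onesPattern : Fin 2 → Fin 2 → Bool := fun _ _ => true

/-- the pattern with rows `1 0` and `1 0` -/
def eqRowsPattern : Fin 2 → Fin 2 → Bool := fun _ j => decide (j = 0)

theorem ones_removal (n : ℕ) (ε : ℝ) (A : Fin n → Fin n → Bool) (hε : 0 < ε) (hε1 : ε < 1)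
    (hfar : ∀ B : Fin n → Fin n → Bool, numCopies onesPattern B = 0 →
      ε * (n : ℝ) ^ 2 ≤ (numDiff A B : ℝ)) :
    (ε / 128) ^ 24 * (n : ℝ) ^ 4 ≤ (numCopies onesPattern A : ℝ) := by
  have hpat : onesPattern = H19.J2 := rfl
  -- a matrix far from every pattern-free matrix contains the pattern
  have hN : 1 ≤ n → 1 ≤ numCopies onesPattern A := by
    intro hn
    by_contra hcon
    have h0 : numCopies onesPattern A = 0 := by omega
    have h := hfar A h0
    rw [H19.numDiff_self] at h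
    have hn' : (1 : ℝ) ≤ (n : ℝ) := by exact_mod_cast hn
    have hpos : 0 < ε * (n : ℝ) ^ 2 := by positivity
    simp only [Nat.cast_zero] at h
    linarith
  apply H19.endgame n _ ε hε hε1 hN
  -- the zero matrix is free of the pattern
  have hz : numCopies onesPattern (fun _ _ => false : Fin n → Fin n → Bool) = 0 := by
    rw [H19.numCopies_two, Finset.card_eq_zero, Finset.eq_empty_iff_forall_notMem]
    rintro ⟨u, v, c, d⟩ hx
    rw [H19.mem_quadSet] at hx
    have h1 := hx.2.2.1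
    simp [onesPattern] at h1
  have hones : numDiff A (fun _ _ => false) = H19.numOnes A := by
    unfold numDiff H19.numOnes
    congr 1
    ext p
    simp
  have h1 := hfar _ hz
  rw [hones] at h1
  have h2 := H19.ones_count A
  rw [← hpat, ← H19.numCopies_two] at h2
  have h3 : ((H19.numOnes A : ℕ) : ℝ) ^ 4
      ≤ (n : ℝ) ^ 4 * (4 * (numCopies onesPattern A : ℝ) + 2 * (n : ℝ) ^ 3) := by
    exact_mod_cast h2
  have h4 : (ε * (n : ℝ) ^ 2) ^ 4 ≤ ((H19.numOnes A : ℕ) : ℝ) ^ 4 :=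
    pow_le_pow_left₀ (by positivity) h1 4
  rcases Nat.eq_zero_or_pos n with hn | hn
  · subst hn
    simp
  have hn4 : (0 : ℝ) < (n : ℝ) ^ 4 := by positivity
  have h5 : (n : ℝ) ^ 4 * (ε ^ 4 * (n : ℝ) ^ 4)
      ≤ (n : ℝ) ^ 4 * (4 * (numCopies onesPattern A : ℝ) + 2 * (n : ℝ) ^ 3) := by
    have e : (n : ℝ) ^ 4 * (ε ^ 4 * (n : ℝ) ^ 4) = (ε * (n : ℝ) ^ 2) ^ 4 := by ring
    rw [e]
    linarith
  have h6 := le_of_mul_le_mul_left h5 hn4
  have hNn : (0 : ℝ) ≤ (numCopies onesPattern A : ℝ) := Nat.cast_nonneg _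
  have hn3 : (0 : ℝ) ≤ (n : ℝ) ^ 3 := by positivity
  linarith

theorem eqRows_removal (n : ℕ) (ε : ℝ) (A : Fin n → Fin n → Bool) (hε : 0 < ε) (hε1 : ε < 1)
    (hfar : ∀ B : Fin n → Fin n → Bool, numCopies eqRowsPattern B = 0 →
      ε * (n : ℝ) ^ 2 ≤ (numDiff A B : ℝ)) :
    (ε / 128) ^ 24 * (n : ℝ) ^ 4 ≤ (numCopies eqRowsPattern A : ℝ) := by
  have hpat : eqRowsPattern = H19.R2 := rfl
  have hN : 1 ≤ n → 1 ≤ numCopies eqRowsPattern A := by
    intro hn
    by_contra hcon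
    have h0 : numCopies eqRowsPattern A = 0 := by omega
    have h := hfar A h0
    rw [H19.numDiff_self] at h
    have hn' : (1 : ℝ) ≤ (n : ℝ) := by exact_mod_cast hn
    have hpos : 0 < ε * (n : ℝ) ^ 2 := by positivity
    simp only [Nat.cast_zero] at h
    linarith
  apply H19.endgame n _ ε hε hε1 hN
  -- the matrix with sorted rows is free of the pattern
  have hz : numCopies eqRowsPattern (H19.sortRows A) = 0 := by
    rw [H19.numCopies_two, hpat]
    exact H19.sortRows_free A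
  have h1 := hfar _ hz
  have h2 := H19.eqRows_count A
  rw [← hpat, ← H19.numCopies_two] at h2
  have h3 : ((numDiff A (H19.sortRows A) : ℕ) : ℝ) ^ 4
      ≤ 16 * (n : ℝ) ^ 4 * (2 * (numCopies eqRowsPattern A : ℝ) + (n : ℝ) ^ 3) := by
    exact_mod_cast h2
  have h4 : (ε * (n : ℝ) ^ 2) ^ 4 ≤ ((numDiff A (H19.sortRows A) : ℕ) : ℝ) ^ 4 :=
    pow_le_pow_left₀ (by positivity) h1 4
  rcases Nat.eq_zero_or_pos n with hn | hn
  · subst hn
    simp
  have hn4 : (0 : ℝ) < (n : ℝ) ^ 4 := by positivity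
  have h5 : (n : ℝ) ^ 4 * (ε ^ 4 * (n : ℝ) ^ 4)
      ≤ (n : ℝ) ^ 4 * (32 * (numCopies eqRowsPattern A : ℝ) + 16 * (n : ℝ) ^ 3) := by
    have e : (n : ℝ) ^ 4 * (ε ^ 4 * (n : ℝ) ^ 4) = (ε * (n : ℝ) ^ 2) ^ 4 := by ring
    rw [e]
    have e2 : (n : ℝ) ^ 4 * (32 * (numCopies eqRowsPattern A : ℝ) + 16 * (n : ℝ) ^ 3)
        = 16 * (n : ℝ) ^ 4 * (2 * (numCopies eqRowsPattern A : ℝ) + (n : ℝ) ^ 3) := by ring
    rw [e2]
    linarith
  exact le_of_mul_le_mul_left h5 hn4

end Vale.Agent.Lib.P037
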